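import Vale.Agent.P267.AB2
import Vale.Agent.P272.B1

/-! P267: the Cauchy-Riemann operator. -/

open scoped Manifold ContDiff Topology
open Filter Metric Set

noncomputable section

namespace Vale.Agent.P267

set_option linter.unusedSectionVars false

variable {M : Type} [TopologicalSpace M] [ChartedSpace C2 M] [T2Space M]

theorem ac_app (F : C2 → ℂ) (z v : C2) :
    dbar F z v = 2⁻¹ * (fderiv ℝ F z v + Complex.I * fderiv ℝ F z (Complex.I • v)) := rfl

theorem ac_lin (L : C2 →L[ℝ] ℂ) (c : ℂ) (v : C2) :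
    L (c • v) = c.re * L v + c.im * L (Complex.I • v) := by
  have h : c • v = c.re • v + c.im • Complex.I • v := by
    conv_lhs => rw [← Complex.re_add_im c]
    rw [add_smul, mul_smul, Complex.coe_smul, Complex.coe_smul]
  rw [h, map_add, map_smul, map_smul, Complex.real_smul, Complex.real_smul]

theorem ac_congr {F G : C2 → ℂ} {z : C2} (e : F =ᶠ[𝓝 z] G) : dbar F z = dbar G z := by
  simp only [dbar, e.fderiv_eq]

theorem dbar_apply (F : C2 → ℂ) (z v : C2) : dbar F z v = P271.dzb v F z := by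
  rw [ac_app, P271.dzb, div_eq_inv_mul]

theorem dbar_comp {F : C2 → ℂ} {T : C2 → C2} {z : C2} (hF : DifferentiableAt ℝ F (T z))
    (hT : DifferentiableAt ℂ T z) :
    dbar (F ∘ T) z = (dbar F (T z)).comp ((fderiv ℂ T z).restrictScalars ℝ) := by
  ext1 v
  simp only [ac_app, (hF.hasFDerivAt.comp z (hT.hasFDerivAt.restrictScalars ℝ)).fderiv,
    ContinuousLinearMap.comp_apply, ContinuousLinearMap.coe_restrictScalars', map_smul]

theorem dbar_smul (F : C2 → ℂ) (z v : C2) (c : ℂ) :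
    dbar F z (c • v) = (starRingEnd ℂ) c * dbar F z v := by
  have h : (starRingEnd ℂ) c = c.re - c.im * Complex.I := Complex.ext (by simp) (by simp)
  rw [ac_app, ac_app, smul_smul, ac_lin _ c, ac_lin _ (Complex.I * c), h, Complex.I_mul_re,
    Complex.I_mul_im]
  push_cast
  linear_combination (2⁻¹ * c.im * fderiv ℝ F z (Complex.I • v)) * Complex.I_mul_I

theorem dbar_norm (F : C2 → ℂ) (z : C2) : ‖dbar F z‖ ≤ ‖fderiv ℝ F z‖ := by
  refine ContinuousLinearMap.opNorm_le_bound _ (norm_nonneg _) fun v => ?_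
  have h1 := (fderiv ℝ F z).le_opNorm v
  have h2 := (fderiv ℝ F z).le_opNorm (Complex.I • v)
  have h3 := norm_add_le (fderiv ℝ F z v) (Complex.I * fderiv ℝ F z (Complex.I • v))
  rw [norm_smul, Complex.norm_I, one_mul] at h2
  rw [norm_mul, Complex.norm_I, one_mul] at h3
  rw [ac_app, norm_mul, norm_inv, Complex.norm_two]
  linarith

theorem ac_cd {F : C2 → ℂ} {z : C2} (hF : DifferentiableAt ℝ F z) (h : dbar F z = 0) :
    DifferentiableAt ℂ F z := by
  have h1 : ∀ v, fderiv ℝ F z (Complex.I • v) = Complex.I * fderiv ℝ F z v := fun v => by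
    have h2 : dbar F z v = 0 := by rw [h]; rfl
    rw [ac_app] at h2
    linear_combination (-2 * Complex.I) * h2 + fderiv ℝ F z (Complex.I • v) * Complex.I_mul_I
  refine (differentiableAt_iff_restrictScalars ℝ hF).2
    ⟨⟨⟨⟨fderiv ℝ F z, map_add _⟩, fun c v => ?_⟩, (fderiv ℝ F z).continuous⟩, rfl⟩
  change fderiv ℝ F z (c • v) = c * fderiv ℝ F z v
  rw [ac_lin, h1]
  linear_combination fderiv ℝ F z v * Complex.re_add_im c

theorem analyticAt_of_dbar {F : C2 → ℂ} {z : C2} (hF : ∀ᶠ w in 𝓝 z, ContDiffAt ℝ ∞ F w)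
    (h : ∀ᶠ w in 𝓝 z, dbar F w = 0) : AnalyticAt ℂ F z := 
  P278F.analyticAt_of_eventually ((hF.and h).mono fun _ hw =>
    ac_cd (hw.1.differentiableAt (by simp)) hw.2)

namespace Cov
variable (C : Cov M) {f h : M → ℂ} {p : M} {α β : M → C2 →L[ℝ] ℂ}

/-- The expression of a form in the chart `P`. -/
def cmp (P : OpenPartialHomeomorph M C2) (α : M → C2 →L[ℝ] ℂ) (z : C2) : C2 →L[ℝ] ℂ :=
  (α (P.symm z)).comp
    ((fderiv ℂ (C.ch (C.idx (P.symm z)) ∘ P.symm) z).restrictScalars ℝ)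

theorem ac_src (p : M) : p ∈ (C.ch (C.idx p)).source := (C.mem_U_idx p).1

theorem ac_cmp {P : OpenPartialHomeomorph M C2} (hp : p ∈ P.source) (α : M → C2 →L[ℝ] ℂ) :
    C.cmp P α (P p) =
      (α p).comp ((fderiv ℂ (C.ch (C.idx p) ∘ P.symm) (P p)).restrictScalars ℝ) := by
  simp only [cmp, P.left_inv hp]

theorem ac_back {P : OpenPartialHomeomorph M C2} (hP : IsCh P) (hp : p ∈ P.source)
    (α : M → C2 →L[ℝ] ℂ) : α p = (C.cmp P α (P p)).comp
      ((fderiv ℂ (P ∘ (C.ch (C.idx p)).symm) (C.ch (C.idx p) p)).restrictScalars ℝ) := by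
  ext1 v
  rw [C.ac_cmp hp]
  exact congrArg (α p) (congrArg (fun L : C2 →L[ℂ] C2 => L v)
    ((C.isCh (C.idx p)).tr_comp hP (C.ac_src p) hp)).symm

theorem ac_d (hf : SmAt f p) :
    DifferentiableAt ℝ (f ∘ (C.ch (C.idx p)).symm) (C.ch (C.idx p) p) :=
  (((C.isCh _).sm p (C.ac_src p) f).1 hf).self_of_nhds.differentiableAt (by simp)

theorem ac_val (f : M → ℂ) (p : M) : (f ∘ (C.ch (C.idx p)).symm) (C.ch (C.idx p) p) = f p :=
  congrArg f ((C.ch _).left_inv (C.ac_src p))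

theorem ac_pair (i j : C.I) : ∃ B : ℝ, ∀ p ∈ C.U i 3, p ∈ C.U j 3 →
    ‖fderiv ℂ (C.ch j ∘ (C.ch i).symm) (C.ch i p)‖ ≤ B := by
  obtain ⟨B, hB⟩ := ((C.isCompact_cl i (r := 3) (by norm_num)).inter
    (C.isCompact_cl j (r := 3) (by norm_num))).exists_bound_of_continuousOn
    (f := fun p => fderiv ℂ (C.ch j ∘ (C.ch i).symm) (C.ch i p)) fun p hp =>
      (ContinuousAt.comp (f := C.ch i)
        ((C.isCh i).tr (C.isCh j) hp.1.1 hp.2.1).fderiv.continuousAt
        ((C.ch i).continuousAt hp.1.1)).continuousWithinAt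
  exact ⟨B, fun p hi hj => hB p ⟨⟨hi.1, hi.2.le⟩, hj.1, hj.2.le⟩⟩

theorem ac_unif : ∃ L : ℝ, 0 < L ∧ ∀ i j : C.I, ∀ p ∈ C.U i 3, p ∈ C.U j 3 →
    ‖fderiv ℂ (C.ch j ∘ (C.ch i).symm) (C.ch i p)‖ ≤ L := by
  choose B hB using C.ac_pair
  obtain ⟨F, hF⟩ := C.fin_slab (-C.R) C.R
  refine ⟨1 + ∑ i ∈ F, ∑ j ∈ F, |B i j|, by positivity, fun i j p hi hj => ?_⟩
  have hi' := (C.U_shift i i.2 3 p).2 hi
  have hj' := (C.U_shift j i.2 3 p).2 hj
  have ht : C.t ((C.g ^ i.2) p) ∈ Icc (-C.R) C.R := by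
    have h1 := C.t_ch hi'.1
    simp only [sub_self, Int.cast_zero, add_zero] at h1
    exact abs_le.1 h1
  have h2 := hB _ _ _ hi' hj'
  have e : C.ch (j.1, j.2 - i.2) ∘ (C.ch (i.1, i.2 - i.2)).symm = C.ch j ∘ (C.ch i).symm :=
    funext fun z => by simp only [Function.comp_apply, C.ch_symm_shift, C.ch_shift]
  rw [e, C.ch_shift] at h2
  have h3 := Finset.single_le_sum (f := fun j => |B (i.1, i.2 - i.2) j|)
    (fun _ _ => abs_nonneg _) (hF _ _ hj'.1 ht)
  have h4 := Finset.single_le_sum (f := fun i => ∑ j ∈ F, |B i j|)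
    (fun _ _ => Finset.sum_nonneg fun _ _ => abs_nonneg _) (hF _ _ hi'.1 ht)
  linarith [le_abs_self (B (i.1, i.2 - i.2) (j.1, j.2 - i.2))]

theorem cmp_db {P : OpenPartialHomeomorph M C2} (hP : IsCh P) (hp : p ∈ P.source)
    (hf : SmAt f p) : C.cmp P (C.db f) (P p) = dbar (f ∘ P.symm) (P p) := by
  have e : f ∘ P.symm =ᶠ[𝓝 (P p)] (f ∘ (C.ch (C.idx p)).symm) ∘ (C.ch (C.idx p) ∘ P.symm) := by
    filter_upwards [(P.tendsto_symm hp).eventually
      ((C.ch (C.idx p)).open_source.mem_nhds (C.ac_src p))] with z hz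
    exact congrArg f ((C.ch _).left_inv hz).symm
  have e1 : (C.ch (C.idx p) ∘ P.symm) (P p) = C.ch (C.idx p) p := congrArg _ (P.left_inv hp)
  rw [C.ac_cmp hp, ac_congr e, dbar_comp (by rw [e1]; exact C.ac_d hf)
    (hP.tr (C.isCh _) hp (C.ac_src p)).differentiableAt, e1]
  rfl

theorem cmp_inj {P : OpenPartialHomeomorph M C2} (hP : IsCh P) (hp : p ∈ P.source)
    (h : C.cmp P α (P p) = C.cmp P β (P p)) : α p = β p := by
  rw [C.ac_back hP hp α, C.ac_back hP hp β, h]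

/-- Norms of forms in the charts are comparable, uniformly. -/
theorem cmp_norm : ∃ L : ℝ, 0 < L ∧ ∀ (i : C.I) (α : M → C2 →L[ℝ] ℂ), ∀ p ∈ C.U i 3,
    ‖C.cmp (C.ch i) α (C.ch i p)‖ ≤ L * ‖α p‖ ∧ ‖α p‖ ≤ L * ‖C.cmp (C.ch i) α (C.ch i p)‖ := by
  obtain ⟨L, L0, hL⟩ := C.ac_unif
  refine ⟨L, L0, fun i α p hp => ?_⟩
  have hq := C.U_mono (C.idx p) (by norm_num : (1 : ℝ) ≤ 3) (C.mem_U_idx p)
  constructor
  · rw [C.ac_cmp hp.1, mul_comm]
    refine (ContinuousLinearMap.opNorm_comp_le _ _).trans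
      (mul_le_mul_of_nonneg_left ?_ (norm_nonneg _))
    rw [ContinuousLinearMap.norm_restrictScalars]
    exact hL _ _ _ hp hq
  · rw [mul_comm]
    refine (congrArg norm (C.ac_back (C.isCh i) hp.1 α)).trans_le
      ((ContinuousLinearMap.opNorm_comp_le _ _).trans
        (mul_le_mul_of_nonneg_left ?_ (norm_nonneg _)))
    rw [ContinuousLinearMap.norm_restrictScalars]
    exact hL _ _ _ hq hp

theorem db_congr (e : f =ᶠ[𝓝 p] h) : C.db f p = C.db h p := 
  ac_congr (e.comp_tendsto ((C.ch _).tendsto_symm (C.ac_src p)))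

theorem db_const (c : ℂ) : C.db (fun _ => c) p = 0 := by
  ext1 v
  change dbar (fun _ => c) _ v = 0
  simp [ac_app]

theorem db_add (hf : SmAt f p) (hh : SmAt h p) : C.db (f + h) p = C.db f p + C.db h p := by
  ext1 v
  have e : (f + h) ∘ (C.ch (C.idx p)).symm =
      f ∘ (C.ch (C.idx p)).symm + h ∘ (C.ch (C.idx p)).symm := rfl
  simp only [db, e, ac_app, fderiv_add (C.ac_d hf) (C.ac_d hh), _root_.add_apply]
  ring

theorem db_neg : C.db (-f) p = -C.db f p := by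
  ext1 v
  change dbar (-(f ∘ _)) _ v = -dbar _ _ v
  simp only [ac_app, fderiv_neg, _root_.neg_apply]
  ring

theorem db_sub (hf : SmAt f p) (hh : SmAt h p) : C.db (f - h) p = C.db f p - C.db h p := by
  rw [sub_eq_add_neg, C.db_add hf hh.neg, C.db_neg, sub_eq_add_neg]

theorem db_mul (hf : SmAt f p) (hh : SmAt h p) :
    C.db (f * h) p = f p • C.db h p + h p • C.db f p := by
  ext1 v
  have e : (f * h) ∘ (C.ch (C.idx p)).symm =
      f ∘ (C.ch (C.idx p)).symm * h ∘ (C.ch (C.idx p)).symm := rfl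
  simp only [db, e, ac_app, fderiv_mul (C.ac_d hf) (C.ac_d hh), _root_.add_apply, _root_.smul_apply,
    C.ac_val, smul_eq_mul]
  ring

theorem db_hol (hf : HolAt f p) : C.db f p = 0 := by
  ext1 v
  have h1 := (((C.isCh _).hol p (C.ac_src p) f).1 hf).differentiableAt.hasFDerivAt.restrictScalars ℝ
  change dbar _ _ v = 0
  simp only [ac_app, h1.fderiv, ContinuousLinearMap.coe_restrictScalars', map_smul, smul_eq_mul,
    ← mul_assoc, Complex.I_mul_I]
  ring

theorem db_comp (hf : SmAt f p) {φ : ℂ → ℂ} {c : ℂ} (hφ : HasDerivAt φ c (f p)) :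
    C.db (fun q => φ (f q)) p = c • C.db f p := by
  ext1 v
  rw [← C.ac_val f p] at hφ
  have h1 := hφ.comp_hasFDerivAt _ (C.ac_d hf).hasFDerivAt
  change dbar (φ ∘ f ∘ _) _ v = c * dbar _ _ v
  simp only [ac_app, h1.fderiv, _root_.smul_apply, smul_eq_mul]
  ring

theorem db_gz (k : ℤ) : C.db (f ∘ (C.g ^ k : M ≃ₜ M)) p = C.db f ((C.g ^ k) p) := by
  have e : f ∘ (C.ch ((C.idx p).1, (C.idx p).2 - k)).symm =
      (f ∘ (C.g ^ k : M ≃ₜ M)) ∘ (C.ch (C.idx p)).symm :=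
    funext fun z => congrArg f (C.ch_symm_shift _ k z)
  rw [db, db, C.idx_gz, C.ch_shift, e]

theorem hol_of_db (hf : SmAt f p) (h : ∀ᶠ q in 𝓝 p, C.db f q = 0) : HolAt f p := by
  have hp := C.ac_src p
  refine ((C.isCh _).hol p hp f).2 (analyticAt_of_dbar (((C.isCh _).sm p hp f).1 hf) ?_)
  filter_upwards [((C.ch _).tendsto_symm hp).eventually (h.and (C.sm_ev hf)),
    (C.ch (C.idx p)).open_target.mem_nhds ((C.ch _).map_source hp)] with w hw hw'
  have h1 := C.cmp_db (C.isCh (C.idx p)) ((C.ch _).map_target hw') hw.2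
  rw [C.ac_cmp ((C.ch _).map_target hw'), hw.1, (C.ch _).right_inv hw'] at h1
  rw [← h1]
  rfl

end Cov

end Vale.Agent.P267
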