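import Vale.Agent.P267.AC

/-! P267: smooth forms and their primitives. -/

open scoped Manifold ContDiff Topology
open Filter Metric Set

noncomputable section

namespace Vale.Agent.P267

set_option linter.unusedSectionVars false

variable {M : Type} [TopologicalSpace M] [ChartedSpace C2 M] [T2Space M]

theorem AD_congr {F G : C2 → ℂ} {z : C2} (h : F =ᶠ[𝓝 z] G) : dbar F z = dbar G z := by
  rw [dbar, dbar, h.fderiv_eq]

theorem AD_sm {F : C2 → ℂ} {z : C2} (h : ContDiffAt ℝ ∞ F z) (v : C2) :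
    ContDiffAt ℝ ∞ (fun w => dbar F w v) z := by
  have k := fun v => (h.fderiv_right (m := ∞) le_rfl).clm_apply (contDiffAt_const (c := v))
  simp only [dbar_apply]
  exact ((k v).add (contDiffAt_const.mul (k _))).div_const 2

theorem AD_anti {A : C2 →L[ℝ] ℂ} (h : ∀ (c : ℂ) v, A (c • v) = (starRingEnd ℂ) c * A v) (v : C2) :
    A v = ∑ j, (starRingEnd ℂ) (v j) * A (Pi.single j 1) := by
  conv_lhs => rw [pi_eq_sum_univ' v, map_sum]
  simp only [h]

theorem AD_cut {F : C2 → ℂ} {z : C2} (h : ∀ᶠ w in 𝓝 z, ContDiffAt ℝ ∞ F w) :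
    ∃ G : C2 → ℂ, ContDiff ℝ ∞ G ∧ G =ᶠ[𝓝 z] F := by
  obtain ⟨r, hr, h1⟩ := nhds_basis_closedBall.mem_iff.1 h
  let b : ContDiffBump z := ⟨r / 2, r, half_pos hr, half_lt_self hr⟩
  refine ⟨fun w => b w • F w, contDiff_iff_contDiffAt.2 fun w => ?_,
    b.eventuallyEq_one.mono fun w hw => by simp only [hw, Pi.one_apply, one_smul]⟩
  by_cases hw : w ∈ tsupport b
  · exact b.contDiff.contDiffAt.smul (h1 (b.tsupport_eq.le hw))
  · refine (contDiffAt_const (c := 0)).congr_of_eventuallyEq ?_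
    exact (notMem_tsupport_iff_eventuallyEq.1 hw).mono fun y hy => by
      simp only [hy, Pi.zero_apply, zero_smul]

namespace Cov
variable {C : Cov M} {f h a b : M → ℂ} {p : M} {α β : M → C2 →L[ℝ] ℂ}

theorem AD_ind {Q : (M → C2 →L[ℝ] ℂ) → Prop} (h : C.SmF α p)
    (h1 : ∀ α β, β =ᶠ[𝓝 p] α → Q α → Q β) (h2 : Q 0)
    (h3 : ∀ f h α, SmAt f p → SmAt h p → Q α → Q fun q => f q • C.db h q + α q) : Q α := by
  obtain ⟨l, k1, k2⟩ := h
  refine h1 _ _ k2 ?_
  clear k2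
  induction l with
  | nil => exact h2
  | cons x l ih =>
    exact h3 _ _ _ (k1 x List.mem_cons_self).1 (k1 x List.mem_cons_self).2
      (ih fun y hy => k1 y (List.mem_cons_of_mem _ hy))

theorem AD_db {P : OpenPartialHomeomorph M C2} (hP : IsCh P) (hp : p ∈ P.source) (hf : SmAt f p) :
    ∀ᶠ w in 𝓝 (P p), C.cmp P (C.db f) w = dbar (f ∘ P.symm) w := by
  filter_upwards [P.open_target.mem_nhds (P.map_source hp), P.tendsto_symm hp (C.sm_ev hf)]
    with w h1 h2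
  have := C.cmp_db hP (P.map_target h1) h2
  rwa [P.right_inv h1] at this

theorem AD_cmp {P : OpenPartialHomeomorph M C2} (hp : p ∈ P.source) (e : α =ᶠ[𝓝 p] β) :
    C.cmp P α =ᶠ[𝓝 (P p)] C.cmp P β :=
  (P.tendsto_symm hp).eventually e |>.mono fun w hw => by simp only [cmp, hw]

theorem SmF.congr (h : C.SmF α p) (e : α =ᶠ[𝓝 p] β) : C.SmF β p := by
  obtain ⟨l, h1, h2⟩ := h
  exact ⟨l, h1, (h2.and e).mono fun q hq => hq.2.symm.trans hq.1⟩
theorem smF_zero : C.SmF 0 p := ⟨[], by simp, .of_forall fun _ => rfl⟩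
theorem smF_db (hf : SmAt f p) : C.SmF (C.db f) p :=
  ⟨[(1, f)], by simpa using ⟨smAt_one, hf⟩, .of_forall fun _ => by simp⟩
theorem SmF.add (h : C.SmF α p) (h' : C.SmF β p) : C.SmF (α + β) p := by
  obtain ⟨l, h1, h2⟩ := h
  obtain ⟨l', h3, h4⟩ := h'
  exact ⟨l ++ l', fun x hx => (List.mem_append.1 hx).elim (h1 x) (h3 x),
    (h2.and h4).mono fun q hq => by simp [hq.1, hq.2]⟩
theorem SmF.smul (hf : SmAt f p) (h : C.SmF α p) : C.SmF (fun q => f q • α q) p := by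
  obtain ⟨l, h1, h2⟩ := h
  refine ⟨l.map fun x => (f * x.1, x.2), fun x hx => ?_, h2.mono fun q hq => ?_⟩
  · obtain ⟨y, hy, rfl⟩ := List.mem_map.1 hx
    exact ⟨hf.mul (h1 y hy).1, (h1 y hy).2⟩
  · simp only [hq, List.smul_sum, List.map_map, Function.comp_def, Pi.mul_apply, mul_smul]
theorem SmF.neg (h : C.SmF α p) : C.SmF (-α) p :=
  (h.smul (smAt_const (-1))).congr (.of_forall fun q => neg_one_smul ℂ (α q))
theorem SmF.sub (h : C.SmF α p) (h' : C.SmF β p) : C.SmF (α - β) p := by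
  rw [sub_eq_add_neg]
  exact h.add h'.neg
theorem SmF.ev (h : C.SmF α p) : ∀ᶠ q in 𝓝 p, C.SmF α q := by
  obtain ⟨l, h1, h2⟩ := h
  filter_upwards [h2.eventually_nhds, (eventually_all_finite l.finite_toSet).2 fun x hx =>
    (C.sm_ev (h1 x hx).1).and (C.sm_ev (h1 x hx).2)] with q k1 k2
  exact ⟨l, k2, k1⟩
theorem SmF.anti (h : C.SmF α p) (c : ℂ) (v : C2) :
    α p (c • v) = (starRingEnd ℂ) c * α p v :=
  AD_ind (Q := fun α => α p (c • v) = (starRingEnd ℂ) c * α p v) h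
    (fun _ _ e k => by rw [e.eq_of_nhds, k]) (by simp) fun f h α _ _ k => by
      simp only [add_apply, smul_apply, db, dbar_smul, k, smul_eq_mul]
      ring
theorem SmF.cmp_sm (h : C.SmF α p) {P : OpenPartialHomeomorph M C2} (hP : IsCh P)
    (hp : p ∈ P.source) (v : C2) :
    ∀ᶠ z in 𝓝 (P p), ContDiffAt ℝ ∞ (fun w => C.cmp P α w v) z := by
  refine AD_ind (Q := fun α => ∀ᶠ z in 𝓝 (P p), ContDiffAt ℝ ∞ (fun w => C.cmp P α w v) z) h
    (fun _ _ e k => ?_) (.of_forall fun _ => contDiffAt_const (c := 0)) fun f h α hf hh k => ?_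
  · filter_upwards [k, (AD_cmp (C := C) hp e).eventually_nhds] with z k1 k2
    exact k1.congr_of_eventuallyEq (k2.mono fun w hw => by simp only [hw])
  · filter_upwards [k, (AD_db (C := C) hP hp hh).eventually_nhds, (hP.sm p hp f).1 hf,
      (hP.sm p hp h).1 hh] with z k1 k2 k3 k4
    exact ((k3.mul (AD_sm k4 v)).add k1).congr_of_eventuallyEq
      (k2.mono fun w hw => by simp only [← hw]; rfl)
theorem SmF.cmp_anti (h : C.SmF α p) (P : OpenPartialHomeomorph M C2) (hp : p ∈ P.source)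
    (v : C2) : C.cmp P α (P p) v =
      ∑ j, (starRingEnd ℂ) (v j) * C.cmp P α (P p) (Pi.single j 1) :=
  AD_anti (fun c v => by
    have k := h.anti c
    rw [← P.left_inv hp] at k
    simp only [cmp, ContinuousLinearMap.comp_apply, ContinuousLinearMap.coe_restrictScalars',
      map_smul, k]) v
theorem SmF.bdd (h : C.SmF α p) : ∃ B, ∀ᶠ q in 𝓝 p, ‖α q‖ ≤ B := by
  obtain ⟨L, hL, h1⟩ := C.cmp_norm
  have h2 := C.U_mono (C.idx p) (by norm_num : (1 : ℝ) ≤ 3) (C.mem_U_idx p)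
  have h3 : ContinuousAt (fun w => ∑ j, ‖C.cmp (C.ch (C.idx p)) α w (Pi.single j 1)‖)
      (C.ch (C.idx p) p) := tendsto_finsetSum _ fun j _ =>
    (h.cmp_sm (C.isCh _) h2.1 _).self_of_nhds.continuousAt.norm
  refine ⟨L * (∑ j, ‖C.cmp (C.ch (C.idx p)) α (C.ch (C.idx p) p) (Pi.single j 1)‖ + 1), ?_⟩
  filter_upwards [(C.isOpen_U _ _).mem_nhds h2, h.ev, (h3.comp
    ((C.ch _).continuousAt h2.1)).eventually_lt continuousAt_const (lt_add_one _)] with q k1 k2 k3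
  refine (h1 _ α q k1).2.trans (mul_le_mul_of_nonneg_left (le_trans
    (ContinuousLinearMap.opNorm_le_bound _ (Finset.sum_nonneg fun _ _ => norm_nonneg _)
      fun v => ?_) k3.le) hL.le)
  rw [k2.cmp_anti _ k1.1, Finset.sum_mul]
  refine norm_sum_le_of_le _ fun j _ => ?_
  rw [norm_mul, RCLike.norm_conj, mul_comm]
  exact mul_le_mul_of_nonneg_left (norm_le_pi_norm v j) (norm_nonneg _)
/-- Smooth forms are bounded on compact sets. -/
theorem smF_bdd {K : Set M} (hK : IsCompact K) (h : ∀ p ∈ K, C.SmF α p) :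
    ∃ B, ∀ p ∈ K, ‖α p‖ ≤ B := by
  refine hK.induction_on (p := fun s => ∃ B, ∀ p ∈ s, ‖α p‖ ≤ B) ⟨0, by simp⟩
    (fun s t hs ⟨B, hB⟩ => ⟨B, fun p hp => hB p (hs hp)⟩) (fun s t ⟨B, hB⟩ ⟨B', hB'⟩ =>
      ⟨max B B', fun p hp => hp.elim (fun k => le_max_of_le_left (hB p k))
        fun k => le_max_of_le_right (hB' p k)⟩) fun p hp => ?_
  obtain ⟨B, hB⟩ := (h p hp).bdd
  exact ⟨_, mem_nhdsWithin_of_mem_nhds hB, B, fun _ hq => hq⟩
/-- Decay is a condition at infinity. -/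
theorem smF_dec (h : ∀ p, C.SmF α p) {ε B T : ℝ} (hε : 0 < ε)
    (hd : ∀ p, T ≤ |C.t p| → ‖α p‖ ≤ B * Real.exp (-ε * |C.t p|)) :
    ∃ ε B : ℝ, 0 < ε ∧ ∀ p, ‖α p‖ ≤ B * Real.exp (-ε * |C.t p|) := by
  obtain ⟨B', hB⟩ := smF_bdd (C.isCompact_t (-T) T) fun p _ => h p
  refine ⟨ε, max B (|B'| * Real.exp (ε * T)), hε, fun p => ?_⟩
  rcases le_total T |C.t p| with h1 | h1
  · exact (hd p h1).trans (mul_le_mul_of_nonneg_right (le_max_left _ _) (Real.exp_pos _).le)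
  · refine ((hB p (abs_le.1 h1)).trans (le_abs_self _)).trans (le_trans ?_
      (mul_le_mul_of_nonneg_right (le_max_right _ _) (Real.exp_pos _).le))
    rw [mul_assoc, ← Real.exp_add]
    exact le_mul_of_one_le_right (abs_nonneg _) (Real.one_le_exp (by nlinarith))

theorem Prim.congr (h : C.Prim α a p) (e : α =ᶠ[𝓝 p] β) (e' : a =ᶠ[𝓝 p] b) :
    C.Prim β b p :=
  ⟨h.1.congr e', ((h.2.and e).and e'.eventually_nhds).mono fun _ hq =>
    (C.db_congr hq.2).symm.trans (hq.1.1.trans hq.1.2)⟩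
theorem Prim.ev (h : C.Prim α a p) : ∀ᶠ q in 𝓝 p, C.Prim α a q := (C.sm_ev h.1).and h.2.eventually_nhds
theorem Prim.hol_sub (h : C.Prim α a p) (h' : C.Prim α b p) : HolAt (a - b) p := by
  refine C.hol_of_db (h.1.sub h'.1) ?_
  filter_upwards [h.2, h'.2, C.sm_ev h.1, C.sm_ev h'.1] with q k1 k2 k3 k4
  rw [C.db_sub k3 k4, k1, k2, sub_self]
theorem Prim.sub (h : C.Prim α a p) (h' : C.Prim β b p) : C.Prim (α - β) (a - b) p := by
  refine ⟨h.1.sub h'.1, ?_⟩
  filter_upwards [h.2, h'.2, C.sm_ev h.1, C.sm_ev h'.1] with q k1 k2 k3 k4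
  rw [C.db_sub k3 k4, k1, k2, Pi.sub_apply]
theorem Prim.add (h : C.Prim α a p) (h' : C.Prim β b p) : C.Prim (α + β) (a + b) p := by
  refine ⟨h.1.add h'.1, ?_⟩
  filter_upwards [h.2, h'.2, C.sm_ev h.1, C.sm_ev h'.1] with q k1 k2 k3 k4
  rw [C.db_add k3 k4, k1, k2, Pi.add_apply]
theorem Prim.of_hol (h : HolAt a p) (e : α =ᶠ[𝓝 p] 0) : C.Prim α a p :=
  ⟨h.smAt, ((C.hol_ev h).and e).mono fun _ hq => (C.db_hol hq.1).trans hq.2.symm⟩
theorem Prim.add_hol (h : C.Prim α a p) (h' : HolAt b p) : C.Prim α (a + b) p := by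
  simpa only [add_zero] using h.add (Prim.of_hol h' (EventuallyEq.refl _ 0))

/-- The coefficient of `dbar α` in the chart `P`. -/
def curl (C : Cov M) (P : OpenPartialHomeomorph M C2) (α : M → C2 →L[ℝ] ℂ) (z : C2) : ℂ :=
  dbar (fun w => C.cmp P α w (Pi.single 1 1)) z (Pi.single 0 1) -
    dbar (fun w => C.cmp P α w (Pi.single 0 1)) z (Pi.single 1 1)

/-- Locally exact forms are closed. -/
theorem Prim.curl (h : C.Prim α a p) {P : OpenPartialHomeomorph M C2} (hP : IsCh P)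
    (hp : p ∈ P.source) : ∀ᶠ z in 𝓝 (P p), C.curl P α z = 0 := by
  filter_upwards [((AD_db (C := C) hP hp h.1).and (AD_cmp (C := C) hp h.2)).eventually_nhds,
    (hP.sm p hp a).1 h.1] with z k1 k2
  have e : ∀ v, dbar (fun w => C.cmp P α w v) z = dbar (P271.dzb v (a ∘ P.symm)) z := fun v =>
    AD_congr (k1.mono fun w hw => by simp only [← hw.2, hw.1, dbar_apply])
  rw [Cov.curl, e, e, dbar_apply, dbar_apply, P272.B1_bb k2, sub_self]

/-- The Dolbeault lemma. -/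
theorem SmF.prim (h : C.SmF α p) {P : OpenPartialHomeomorph M C2} (hP : IsCh P)
    (hp : p ∈ P.source) (h0 : ∀ᶠ z in 𝓝 (P p), C.curl P α z = 0) : ∃ a, C.Prim α a p := by
  choose G h1 h2 using fun j : Fin 2 => AD_cut (h.cmp_sm hP hp (Pi.single j 1))
  have h3 := (eventually_all.2 h2).eventually_nhds
  obtain ⟨r, hr, h4⟩ := Metric.eventually_nhds_iff_ball.1 (h0.and h3)
  have e : ∀ (F : C2 → ℂ) c v z, P271.dzb v (fun w => F (c + w)) z = dbar F (c + z) v :=
    fun F c v z => by simp only [dbar_apply, P271.dzb, fderiv_comp_add_left]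
  have h5 : ∀ z ∈ ball (0 : C2) r, P271.dzb (Pi.single 0 1) (fun w => G 1 (P p + w)) z =
      P271.dzb (Pi.single 1 1) (fun w => G 0 (P p + w)) z := fun z hz => by
    have k := h4 (P p + z) (by simpa using hz)
    rw [e, e, AD_congr (k.2.mono fun w hw => hw 1), AD_congr (k.2.mono fun w hw => hw 0)]
    exact sub_eq_zero.1 k.1
  obtain ⟨u, r', hr', h6, h7⟩ := P272.B1_dolb (α := fun j w => G j (P p + w)) hr
    (fun j => (h1 j).comp (contDiff_const.add contDiff_id)) (Fin.forall_fin_two.2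
      ⟨Fin.forall_fin_two.2 ⟨fun _ _ => rfl, h5⟩,
        Fin.forall_fin_two.2 ⟨fun z hz => (h5 z hz).symm, fun _ _ => rfl⟩⟩)
  have h8 : SmAt ((fun z => u (-P p + z)) ∘ P) p := hP.sm_fun hp
    (.of_forall fun _ => (h6.comp (contDiff_const.add contDiff_id)).contDiffAt)
  refine ⟨_, h8, ?_⟩
  filter_upwards [P.open_source.mem_nhds hp, C.sm_ev h8, h.ev,
    P.continuousAt hp (inter_mem (ball_mem_nhds _ hr') (eventually_all.2 h2))] with q k1 k2 k3 k4
  refine C.cmp_inj hP k1 (ContinuousLinearMap.ext fun v => ?_)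
  rw [k3.cmp_anti P k1, (smF_db k2).cmp_anti P k1, C.cmp_db hP k1 k2]
  refine Finset.sum_congr rfl fun j _ => congrArg _ ?_
  rw [AD_congr (G := fun z => u (-P p + z)) (mem_of_superset (P.open_target.mem_nhds
    (P.map_source k1)) fun w hw => by simp [P.right_inv hw]), dbar_apply, e, dbar_apply,
    h7 j _ (by simpa [neg_add_eq_sub, dist_eq_norm] using k4.1), add_neg_cancel_left]
  exact k4.2 j

end Cov

end Vale.Agent.P267
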