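import Vale.Agent.P267.AD
import Vale.Agent.P271A.Ext

/-! P267: division of germs and the identity theorem. -/

open scoped Manifold ContDiff Topology
open Filter Metric Set

noncomputable section

namespace Vale.Agent.P267

set_option linter.unusedSectionVars false

variable {M : Type} [TopologicalSpace M] [ChartedSpace C2 M] [T2Space M]

open Asymptotics

/-- Riemann extension for a bounded quotient. -/
theorem ratio {F G : C2 → ℂ} {z : C2} (hF : AnalyticAt ℂ F z) (hG : AnalyticAt ℂ G z)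
    (h0 : ¬ G =ᶠ[𝓝 z] 0) (h : F =O[𝓝 z] G) :
    ∃ H, AnalyticAt ℂ H z ∧ F =ᶠ[𝓝 z] H * G := by
  have _ := h0
  obtain ⟨c, hc, hb⟩ := h.exists_nonneg
  obtain ⟨U, h1, hU, hz⟩ := _root_.eventually_nhds_iff.1
    (hF.eventually_analyticAt.and (hG.eventually_analyticAt.and hb.bound))
  obtain ⟨H, h2, h3, -⟩ := P271A.extendE hU (f := G) (h := fun y => F y / G y)
    (fun y hy => (h1 y hy).2.1.differentiableAt.differentiableWithinAt)
    (fun y hy h4 => ((h1 y hy).1.div (h1 y hy).2.1 h4).differentiableAt)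
    (fun y _ h4 => by simp [h4]) fun K hK hK' => by
      refine (MeasureTheory.setLIntegral_mono' hK'.measurableSet
        (g := fun _ => ENNReal.ofReal (c ^ 2)) fun y hy => ?_).trans_lt ?_
      · refine ENNReal.ofReal_le_ofReal (pow_le_pow_left₀ (norm_nonneg _) ?_ 2)
        rw [norm_div]
        exact div_le_of_le_mul₀ (norm_nonneg _) hc (h1 y (hK hy)).2.2
      · rw [MeasureTheory.setLIntegral_const]
        exact ENNReal.mul_lt_top ENNReal.ofReal_lt_top hK'.measure_lt_top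
  refine ⟨H, P278F.analyticOnNhd_of_differentiableOn hU h2 z hz, ?_⟩
  filter_upwards [hU.mem_nhds hz] with y hy
  by_cases h4 : G y = 0
  · have h5 := (h1 y hy).2.2
    rw [h4, norm_zero, mul_zero, norm_le_zero_iff] at h5
    rw [Pi.mul_apply, h4, h5, mul_zero]
  · rw [Pi.mul_apply, h3 y hy h4, div_mul_cancel₀ _ h4]

theorem ae_ne {G : C2 → ℂ} {z : C2} (hG : AnalyticAt ℂ G z) (h0 : ¬ G =ᶠ[𝓝 z] 0) :
    ∀ᶠ y in 𝓝 z, ¬ G =ᶠ[𝓝 y] 0 := by
  obtain ⟨r, hr, h1⟩ := Metric.eventually_nhds_iff_ball.1 hG.eventually_analyticAt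
  filter_upwards [ball_mem_nhds z hr] with y hy h2
  exact h0 (mem_of_superset (ball_mem_nhds z hr)
    (AnalyticOnNhd.eqOn_zero_of_preconnected_of_eventuallyEq_zero h1
      (convex_ball z r).isPreconnected hy h2))

variable {f σ w w' : M → ℂ} {p : M}

theorem ae_ev {P : M → Prop} :
    (∀ᶠ q in 𝓝 p, P q) ↔ ∀ᶠ z in 𝓝 (chartAt C2 p p), P ((chartAt C2 p).symm z) := by
  rw [← (chartAt C2 p).symm_map_nhds_eq (mem_chart_source C2 p), eventually_map]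

theorem ae_nev (hσ : HolAt σ p) (h0 : ¬ σ =ᶠ[𝓝 p] 0) : ∀ᶠ q in 𝓝 p, ¬ σ =ᶠ[𝓝 q] 0 := by
  refine ae_ev.2 ?_
  filter_upwards [ae_ne hσ fun h => h0 (ae_ev.2 h),
    (chartAt C2 p).open_target.mem_nhds (mem_chart_target C2 p)] with z h1 h2 h3
  exact h1 (((chartAt C2 p).continuousAt_symm h2).eventually h3)

theorem ae_cont (hf : HolAt f p) : ∀ᶠ q in 𝓝 p, ContinuousAt f q := by
  filter_upwards [((chartAt C2 p).continuousAt (mem_chart_source C2 p)).eventually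
    (AnalyticAt.eventually_analyticAt hf), chart_source_mem_nhds C2 p] with q h1 h2
  refine (h1.continuousAt.comp ((chartAt C2 p).continuousAt h2)).congr ?_
  filter_upwards [(chartAt C2 p).eventually_left_inverse h2] with y hy
  simp only [Function.comp_apply, hy]

theorem ae_cancel (hσ : HolAt σ p) (h0 : ¬ σ =ᶠ[𝓝 p] 0)
    (hw : ∀ᶠ q in 𝓝 p, ContinuousAt w q) (hw' : ∀ᶠ q in 𝓝 p, ContinuousAt w' q)
    (h : σ * w =ᶠ[𝓝 p] σ * w') : w =ᶠ[𝓝 p] w' := by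
  filter_upwards [ae_nev hσ h0, hw, hw', h.eventually_nhds] with q h1 h2 h3 h4
  by_contra h5
  refine h1 ?_
  filter_upwards [(h2.ne_iff_eventually_ne h3).1 h5, h4] with y h6 h7
  exact (mul_eq_mul_left_iff.1 h7).resolve_left h6

theorem HolAt.ratio (hf : HolAt f p) (hσ : HolAt σ p) (h0 : ¬ σ =ᶠ[𝓝 p] 0)
    (h : f =O[𝓝 p] σ) : ∃ H, HolAt H p ∧ f =ᶠ[𝓝 p] H * σ := by
  obtain ⟨H, h1, h2⟩ := P267.ratio hf hσ (fun h => h0 (ae_ev.2 h))
    (h.comp_tendsto ((chartAt C2 p).tendsto_symm (mem_chart_source C2 p)))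
  have h3 := (chartAt C2 p).eventually_right_inverse (mem_chart_target C2 p)
  refine ⟨H ∘ chartAt C2 p, h1.congr (h3.mono fun z hz => by simp only [Function.comp_apply, hz]),
    ae_ev.2 ?_⟩
  filter_upwards [h2, h3] with z h4 h5
  simpa only [Function.comp_apply, Pi.mul_apply, h5] using h4

/-- A germ that is not zero can be cancelled. -/
theorem HolAt.cancel (C : Cov M) (hσ : HolAt σ p) (h0 : ¬ σ =ᶠ[𝓝 p] 0)
    (hw : ∀ᶠ q in 𝓝 p, ContinuousAt w q) (hw' : ∀ᶠ q in 𝓝 p, ContinuousAt w' q)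
    (h : σ * w =ᶠ[𝓝 p] σ * w') : w =ᶠ[𝓝 p] w' :=
  have _ := C
  ae_cancel hσ h0 hw hw' h

theorem HolAt.of_mul (C : Cov M) (hσ : HolAt σ p) (h0 : ¬ σ =ᶠ[𝓝 p] 0) (hw : SmAt w p)
    (h : HolAt (σ * w) p) : HolAt w p := by
  obtain ⟨H, h1, h2⟩ := h.ratio hσ h0
    (((isBigO_refl σ _).mul (hw.continuousAt.tendsto.isBigO_one ℂ)).congr_right fun q => mul_one _)
  rw [mul_comm H] at h2
  exact h1.congr (ae_cancel hσ h0 ((C.sm_ev hw).mono fun _ => SmAt.continuousAt) (ae_cont h1)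
    h2).symm

theorem HolAt.ne_ev (C : Cov M) (hσ : HolAt σ p) (h0 : ¬ σ =ᶠ[𝓝 p] 0) :
    ∀ᶠ q in 𝓝 p, ¬ σ =ᶠ[𝓝 q] 0 :=
  have _ := C
  ae_nev hσ h0

theorem HolAt.mul_ne (hf : HolAt f p) (hσ : HolAt σ p) (h1 : ¬ f =ᶠ[𝓝 p] 0)
    (h0 : ¬ σ =ᶠ[𝓝 p] 0) : ¬ f * σ =ᶠ[𝓝 p] 0 := fun h =>
  h0 (ae_cancel hf h1 (ae_cont hσ) (.of_forall fun _ => continuousAt_const) (by rwa [mul_zero]))

/-- The identity theorem for sections. -/
theorem Sec.ne_germ [ConnectedSpace M] (C : Cov M) {u : M → M → ℂ} (hu : IsBundle HolAt u)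
    {s : M → ℂ} (hs : Sec u s) (h : s ≠ 0) (p : M) : ¬ u p * s =ᶠ[𝓝 p] 0 := fun h1 => by
  have _ := C
  have h2 : ∀ q, u q * s =ᶠ[𝓝 q] 0 → s =ᶠ[𝓝 q] 0 := fun q h3 => by
    filter_upwards [hu q, h3] with y h4 h5 using (mul_eq_zero.1 h5).resolve_left h4.1
  have h3 : IsClopen {q | s =ᶠ[𝓝 q] 0} := by
    refine ⟨⟨isOpen_iff_mem_nhds.2 fun q hq => ?_⟩, isOpen_setOfPred_eventually_nhds⟩
    filter_upwards [ae_nev (hs q) fun h4 => hq (h2 q h4)] with y h4 h5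
    exact h4 (h5.mono fun x hx => mul_eq_zero_of_right _ hx)
  have h4 := h3.eq_univ ⟨p, h2 p h1⟩
  exact h (funext fun q => EventuallyEq.eq_of_nhds (h4.ge (mem_univ q)))

end Vale.Agent.P267
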