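import Vale.Agent.P267.AD

/-! P267: bundles, sections and tails. -/

open scoped Manifold ContDiff Topology
open Filter Metric Set

noncomputable section

namespace Vale.Agent.P267

set_option linter.unusedSectionVars false

variable {M : Type} [TopologicalSpace M] [ChartedSpace C2 M] [T2Space M]

open Asymptotics

variable {u v : M → M → ℂ} {s q : M → ℂ} {p : M}

theorem IsBundle.ne {R : (M → ℂ) → M → Prop} (hu : IsBundle R u) (p : M) :
    ∀ᶠ y in 𝓝 p, u p y ≠ 0 :=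
  (hu p).mono fun _ h => h.1
/-- Change of the frame, holomorphic case. -/
theorem IsBundle.hol_iff (hu : IsBundle HolAt u) (p : M) :
    ∀ᶠ y in 𝓝 p, ∀ s, HolAt (u y * s) y ↔ HolAt (u p * s) y := by
  filter_upwards [hu p, (hu.ne p).eventually_nhds] with y h1 h2 s
  have h3 := hu.ne y
  constructor
  · intro h
    refine (h1.2.mul h).congr (h3.mono fun z hz => ?_)
    simp only [Pi.mul_apply, Pi.div_apply]
    field_simp
  · intro h
    refine ((h1.2.inv (div_ne_zero h1.1 h3.self_of_nhds)).mul h).congr (h2.mono fun z hz => ?_)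
    simp only [Pi.mul_apply, Pi.div_apply, inv_div]
    field_simp
/-- Change of the frame, smooth case. -/
theorem IsBundle.sm_iff (hu : IsBundle SmAt u) (p : M) :
    ∀ᶠ y in 𝓝 p, ∀ s, SmAt (u y * s) y ↔ SmAt (u p * s) y := by
  filter_upwards [hu p, (hu.ne p).eventually_nhds] with y h1 h2 s
  have h3 := hu.ne y
  constructor
  · intro h
    refine (h1.2.mul h).congr (h3.mono fun z hz => ?_)
    simp only [Pi.mul_apply, Pi.div_apply]
    field_simp
  · intro h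
    refine ((h1.2.inv (div_ne_zero h1.1 h3.self_of_nhds)).mul h).congr (h2.mono fun z hz => ?_)
    simp only [Pi.mul_apply, Pi.div_apply, inv_div]
    field_simp
theorem IsBundle.smooth (hu : IsBundle HolAt u) : IsBundle SmAt u :=
  fun p => (hu p).mono fun _ h => ⟨h.1, h.2.smAt⟩
theorem isBundle_one : IsBundle HolAt (1 : M → M → ℂ) :=
  fun _ => Eventually.of_forall fun _ => ⟨one_ne_zero, by
    rw [Pi.one_apply, Pi.one_apply, div_one]
    exact holAt_one⟩
theorem IsBundle.mul (hu : IsBundle HolAt u) (hv : IsBundle HolAt v) :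
    IsBundle HolAt (u * v) := fun p => by
  filter_upwards [hu p, hv p] with y h1 h2
  refine ⟨mul_ne_zero h1.1 h2.1, ?_⟩
  rw [Pi.mul_apply, Pi.mul_apply, mul_div_mul_comm]
  exact h1.2.mul h2.2
theorem IsBundle.inv (hu : IsBundle HolAt u) : IsBundle HolAt u⁻¹ := fun p => by
  filter_upwards [hu p] with y h1
  refine ⟨inv_ne_zero h1.1, ?_⟩
  rw [Pi.inv_apply, Pi.inv_apply, inv_div_inv, ← inv_div]
  exact h1.2.inv (div_ne_zero h1.1 (hu.ne y).self_of_nhds)
theorem IsBundle.div (hu : IsBundle HolAt u) (hv : IsBundle HolAt v) :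
    IsBundle HolAt (u / v) := by
  rw [div_eq_mul_inv]
  exact hu.mul hv.inv
theorem Sec.mul (hs : Sec u s) (hq : Sec v q) : Sec (u * v) (s * q) := fun p => by
  rw [Pi.mul_apply, mul_mul_mul_comm]
  exact (hs p).mul (hq p)
theorem sec_one : Sec (1 : M → M → ℂ) 1 := fun p => by
  rw [Pi.one_apply, mul_one]
  exact holAt_one
theorem Bdd.mul (hs : Bdd s) (hq : Bdd q) : Bdd (s * q) := by
  obtain ⟨B, hB⟩ := hs
  obtain ⟨D, hD⟩ := hq
  refine ⟨B * D, fun p => ?_⟩
  rw [Pi.mul_apply, norm_mul]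
  exact mul_le_mul (hB p) (hD p) (norm_nonneg _) ((norm_nonneg _).trans (hB p))
theorem Bdd.comp (hs : Bdd s) (G : M → M) : Bdd (s ∘ G) :=
  let ⟨B, hB⟩ := hs
  ⟨B, fun p => hB (G p)⟩

namespace Cov
variable {C : Cov M}

theorem bundle_pull (hu : IsBundle HolAt u) (k : ℤ) :
    IsBundle HolAt (pull (C.g ^ k : M ≃ₜ M) u) := fun p =>
  (((C.g ^ k : M ≃ₜ M).continuous.tendsto p).eventually (hu _)).mono fun _ h =>
    ⟨h.1, (C.hol_gz k).2 h.2⟩
theorem bundle_pull_sm (hu : IsBundle SmAt u) (k : ℤ) :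
    IsBundle SmAt (pull (C.g ^ k : M ≃ₜ M) u) := fun p =>
  (((C.g ^ k : M ≃ₜ M).continuous.tendsto p).eventually (hu _)).mono fun _ h =>
    ⟨h.1, (C.sm_gz k).2 h.2⟩
theorem sec_pull (hs : Sec u s) (k : ℤ) :
    Sec (pull (C.g ^ k : M ≃ₜ M) u) (s ∘ (C.g ^ k : M ≃ₜ M)) := fun _ =>
  (C.hol_gz k).2 (hs _)

theorem LimB.mul {c d : ℂ} (hs : C.LimB s c) (hq : C.LimB q d) : C.LimB (s * q) (c * d) := by
  obtain ⟨ε, B, T, hε, h⟩ := hs
  obtain ⟨ε', B', T', hε', h'⟩ := hq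
  refine ⟨min ε ε', |B| * |B'| + ‖c‖ * |B'| + ‖d‖ * |B|, max (max T T') 0, lt_min hε hε',
    fun p hp => ?_⟩
  have h0 : 0 ≤ C.t p := (le_max_right _ _).trans hp
  obtain ⟨E, hE⟩ : ∃ E, E = Real.exp (-min ε ε' * C.t p) := ⟨_, rfl⟩
  have e0 : 0 ≤ E := hE ▸ (Real.exp_pos _).le
  have e1 : E ≤ 1 := by
    rw [hE, Real.exp_le_one_iff]
    exact mul_nonpos_of_nonpos_of_nonneg (neg_nonpos.2 (lt_min hε hε').le) h0
  have key : ∀ (e b : ℝ), min ε ε' ≤ e → b * Real.exp (-e * C.t p) ≤ |b| * E := fun e b he => by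
    rw [hE]
    exact mul_le_mul (le_abs_self b) (Real.exp_le_exp.2
      (mul_le_mul_of_nonneg_right (neg_le_neg he) h0)) (Real.exp_pos _).le (abs_nonneg b)
  have a1 := (h p (((le_max_left _ _).trans (le_max_left _ _)).trans hp)).trans
    (key ε B (min_le_left _ _))
  have a2 := (h' p (((le_max_right _ _).trans (le_max_left _ _)).trans hp)).trans
    (key ε' B' (min_le_right _ _))
  have a3 : ‖s p - c‖ ≤ |B| := a1.trans (mul_le_of_le_one_right (abs_nonneg B) e1)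
  rw [← hE, show (s * q) p - c * d = (s p - c) * (q p - d) + c * (q p - d) + d * (s p - c) by
    rw [Pi.mul_apply]; ring]
  refine norm_add₃_le.trans ?_
  simp only [norm_mul]
  calc _ ≤ |B| * (|B'| * E) + ‖c‖ * (|B'| * E) + ‖d‖ * (|B| * E) := by gcongr
    _ = _ := by ring
theorem LimB.pull {c : ℂ} (hs : C.LimB s c) (k : ℤ) :
    C.LimB (s ∘ (C.g ^ k : M ≃ₜ M)) c := by
  obtain ⟨ε, B, T, hε, h⟩ := hs
  refine ⟨ε, B * Real.exp (-ε * k), T - k, hε, fun p hp => ?_⟩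
  refine (h _ (by rw [C.t_gz]; linarith)).trans (le_of_eq ?_)
  rw [C.t_gz, mul_add, Real.exp_add]
  ring
theorem LimA.pull {c : ℂ} (hs : C.LimA s c) (k : ℤ) :
    C.LimA (s ∘ (C.g ^ k : M ≃ₜ M)) c := by
  obtain ⟨ε, B, T, hε, h⟩ := hs
  refine ⟨ε, B * Real.exp (ε * k), T - k, hε, fun p hp => ?_⟩
  refine (h _ (by rw [C.t_gz]; linarith)).trans (le_of_eq ?_)
  rw [C.t_gz, mul_add, Real.exp_add]
  ring
theorem limB_one : C.LimB 1 1 :=
  ⟨1, 0, 0, one_pos, fun _ _ => by simp⟩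
theorem LimA.tendsto {c : ℂ} (hs : C.LimA s c) : Tendsto s (comap C.t atBot) (𝓝 c) := by
  obtain ⟨ε, B, T, hε, h⟩ := hs
  have ht : Tendsto C.t (comap C.t atBot) atBot := tendsto_comap
  refine tendsto_iff_norm_sub_tendsto_zero.2 (squeeze_zero' (Eventually.of_forall fun _ =>
    norm_nonneg _) ((ht.eventually (eventually_le_atBot T)).mono h) ?_)
  simpa using (Real.tendsto_exp_atBot.comp (ht.const_mul_atBot hε)).const_mul B
theorem LimB.tendsto {c : ℂ} (hs : C.LimB s c) : Tendsto s (comap C.t atTop) (𝓝 c) := by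
  obtain ⟨ε, B, T, hε, h⟩ := hs
  have ht : Tendsto C.t (comap C.t atTop) atTop := tendsto_comap
  refine tendsto_iff_norm_sub_tendsto_zero.2 (squeeze_zero' (Eventually.of_forall fun _ =>
    norm_nonneg _) ((ht.eventually (eventually_ge_atTop T)).mono h) ?_)
  simpa using (Real.tendsto_exp_atBot.comp
    (ht.const_mul_atTop_of_neg (neg_neg_of_pos hε))).const_mul B
theorem LimB.half (hs : C.LimB s 1) : ∃ T : ℝ, ∀ p, T ≤ C.t p → 1 / 2 ≤ ‖s p‖ := by
  have h := hs.tendsto.norm.eventually (eventually_ge_nhds (show (1 / 2 : ℝ) < ‖(1 : ℂ)‖ by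
    norm_num))
  obtain ⟨T, hT⟩ := eventually_atTop.1 (eventually_comap.1 h)
  exact ⟨T, fun p hp => hT _ hp p rfl⟩
theorem neBot_A [Nonempty M] : (comap C.t atBot).NeBot := by
  refine comap_neBot fun S hS => ?_
  obtain ⟨T, hT⟩ := mem_atBot_sets.1 hS
  obtain ⟨p⟩ := ‹Nonempty M›
  refine ⟨(C.g ^ ⌊T - C.t p⌋) p, hT _ ?_⟩
  rw [C.t_gz]
  linarith [Int.floor_le (T - C.t p)]
theorem neBot_B [Nonempty M] : (comap C.t atTop).NeBot := by
  refine comap_neBot fun S hS => ?_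
  obtain ⟨T, hT⟩ := mem_atTop_sets.1 hS
  obtain ⟨p⟩ := ‹Nonempty M›
  refine ⟨(C.g ^ ⌈T - C.t p⌉) p, hT _ ?_⟩
  rw [C.t_gz]
  linarith [Int.le_ceil (T - C.t p)]
theorem LimB.ne_zero [Nonempty M] (hs : C.LimB s 1) : s ≠ 0 := by
  rintro rfl
  have := neBot_B (C := C)
  exact zero_ne_one (tendsto_nhds_unique (tendsto_const_nhds (x := (0 : ℂ))) hs.tendsto)

end Cov

end Vale.Agent.P267
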