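import Vale.Agent.P267.BV3

/-! P267: the alternative for one section. -/

open scoped Manifold ContDiff Topology
open Filter Metric Set Asymptotics

noncomputable section

namespace Vale.Agent.P267

set_option linter.unusedSectionVars false

variable {M : Type} [TopologicalSpace M] [ChartedSpace C2 M] [T2Space M]

namespace Cov
variable [ConnectedSpace M] {C : Cov M} {n : ℕ} {E u : Fin n → M → M → ℂ} {s : Fin n → M → ℂ}

theorem Out.div (O : C.Out E u s) {v : M → M → ℂ} {q : M → ℂ} (hv : C.Tail v) (hq : Sec v q)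
    (hb : Bdd q) (hA : C.LimA q 0) (i : Fin n) (hi : C.LimA (s i) 0) :
    ∃ k₀ : ℤ, ∀ k, k₀ ≤ k → ∃ q', Sec (v / pull (C.g ^ k : M ≃ₜ M) (u i)) q' ∧ Bdd q' ∧
      q = q' * (s i ∘ (C.g ^ k : M ≃ₜ M)) := by
  obtain ⟨T0, hT0⟩ := (O.one i).half
  obtain ⟨a, δ, B, T, hδ, hB, ht⟩ := hv.tail'
  refine ⟨⌈T + C.R + T0 + 3⌉, fun k hk => ?_⟩
  have hk' : T + C.R + T0 + 3 ≤ k := (Int.le_ceil _).trans (by exact_mod_cast hk)
  have e : ∀ p, (C.g ^ (-k)) ((C.g ^ k) p) = p := fun p => by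
    rw [← gz_add, neg_add_cancel, zpow_zero]
    rfl
  obtain ⟨q', h1, h2, h3⟩ := C.div0 (τ := T0 + 1) (O.tail i) (O.sec i) (O.bdd i)
    (O.solve _ (O.tail i) _ (O.sec i) (O.bdd i) (O.one i)) (fun p hp => hT0 p (by linarith))
    (bundle_pull hv.hol (-k)) (ht.pull hδ.le hB (-k)) hδ (by positivity)
    (fun j p hp hp' => by
      have h := (abs_le.1 (C.t_ch hp)).1
      have h' : (T : ℝ) ≤ ((j.2 - -k : ℤ) : ℝ) := by push_cast; linarith
      exact le_trans (by exact_mod_cast h') (le_abs_self _))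
    (sec_pull hq (-k)) (hb.comp _) (hA.pull (-k)) hi (O.one i) (O.s1 i) O.const
  refine ⟨q' ∘ (C.g ^ k : M ≃ₜ M), ?_, h2.comp _, funext fun p => ?_⟩
  · have h4 := sec_pull (C := C) h1 k
    have e' : pull (C.g ^ k : M ≃ₜ M) (pull (C.g ^ (-k) : M ≃ₜ M) v / u i) =
        v / pull (C.g ^ k : M ≃ₜ M) (u i) := by
      funext p y
      simp only [pull, Pi.div_apply, e]
    rwa [e'] at h4
  · have h4 := congrFun h3 ((C.g ^ k) p)
    simpa only [Function.comp_apply, e, Pi.mul_apply] using h4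

theorem Out.alt (O : C.Out E u s) (i : Fin n) :
    (∃ K : Finset ℤ, (∀ k ∈ K, 0 < k) ∧
      (fun x => ∏ k ∈ K, ‖s i ((C.g ^ k) x)‖) =O[comap C.t atBot] fun x => ‖s i x‖) ∨
    (Tendsto (fun x => ‖s i x‖) (comap C.t atBot) (𝓝 0) ∧ ∀ m : ℕ, ∃ K : Finset ℤ, K.card = m ∧
      (fun x => ‖s i x‖) =O[comap C.t atBot] fun x => ∏ k ∈ K, ‖s i ((C.g ^ k) x)‖) := by
  refine or_iff_not_imp_left.2 fun hn => ?_
  have key : ∀ (K : Finset ℤ) (v : M → M → ℂ) (q : M → ℂ), (∀ k ∈ K, 0 < k) → C.Tail v →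
      Sec v q → Bdd q → (∀ x, s i x = q x * ∏ k ∈ K, s i ((C.g ^ k) x)) → C.LimA q 0 := by
    intro K v q hK hv hq hb e
    obtain ⟨c, hc⟩ := O.lim v hv q hq hb
    by_cases h0 : c = 0
    · exact h0 ▸ hc
    refine absurd ⟨K, hK, ?_⟩ hn
    have hp : 0 < ‖c‖ / 2 := half_pos (norm_pos_iff.2 h0)
    refine IsBigO.of_bound (‖c‖ / 2)⁻¹ ?_
    filter_upwards [hc.tendsto.norm.eventually (lt_mem_nhds (half_lt_self (norm_pos_iff.2 h0)))]
      with x hx
    rw [norm_norm, ← norm_prod, norm_norm, e x, norm_mul, le_inv_mul_iff₀ hp]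
    exact mul_le_mul_of_nonneg_right hx.le (norm_nonneg _)
  have hi : C.LimA (s i) 0 :=
    key ∅ (u i) (s i) (by simp) (O.tail i) (O.sec i) (O.bdd i) (by simp)
  have ind : ∀ m : ℕ, ∃ (K : Finset ℤ) (v : M → M → ℂ) (q : M → ℂ), K.card = m ∧
      (∀ k ∈ K, 0 < k) ∧ C.Tail v ∧ Sec v q ∧ Bdd q ∧
      ∀ x, s i x = q x * ∏ k ∈ K, s i ((C.g ^ k) x) := by
    intro m
    induction m with
    | zero => exact ⟨∅, u i, s i, rfl, by simp, O.tail i, O.sec i, O.bdd i, by simp⟩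
    | succ m ih =>
      obtain ⟨K, v, q, h1, h2, h3, h4, h5, h6⟩ := ih
      obtain ⟨k₀, hk⟩ := O.div h3 h4 h5 (key K v q h2 h3 h4 h5 h6) i hi
      obtain ⟨k, k1, k2⟩ := (Set.Ici_infinite (max k₀ 1)).exists_notMem_finset K
      obtain ⟨q', a1, a2, a3⟩ := hk k ((le_max_left _ _).trans k1)
      refine ⟨insert k K, _, q', by rw [Finset.card_insert_of_notMem k2, h1], fun j hj => ?_,
        h3.div ((O.tail i).pull k), a1, a2, fun x => ?_⟩
      · rcases Finset.mem_insert.1 hj with rfl | hj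
        · exact lt_of_lt_of_le one_pos ((le_max_right _ _).trans k1)
        · exact h2 j hj
      · rw [Finset.prod_insert k2, h6 x, a3, ← mul_assoc]
        rfl
  refine ⟨by simpa using hi.tendsto.norm, fun m => ?_⟩
  obtain ⟨K, v, q, h1, -, -, -, ⟨B, hB⟩, h6⟩ := ind m
  refine ⟨K, h1, IsBigO.of_bound B (Eventually.of_forall fun x => ?_)⟩
  rw [norm_norm, ← norm_prod, norm_norm, h6 x, norm_mul]
  exact mul_le_mul_of_nonneg_right (hB x) (norm_nonneg _)

end Cov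

end Vale.Agent.P267
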