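import Vale.Agent.P267.AD

/-! P267: pushing the non-closed part of a form to the side of a box. -/

open scoped Manifold ContDiff Topology
open Filter Metric Set Asymptotics

noncomputable section

namespace Vale.Agent.P267

set_option linter.unusedSectionVars false

variable {M : Type} [TopologicalSpace M] [ChartedSpace C2 M] [T2Space M]

theorem BT2_conj (w v : C2) :
    dbar (fun z : C2 => (starRingEnd ℂ) (z 1)) w v = (starRingEnd ℂ) (v 1) := by
  have h : fderiv ℝ (fun z : C2 => (starRingEnd ℂ) (z 1)) w = _ :=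
    ((Complex.conjCLE : ℂ →L[ℝ] ℂ).comp
      (ContinuousLinearMap.proj (R := ℝ) (φ := fun _ : Fin 2 => ℂ) 1)).fderiv
  rw [ac_app, h]
  simp only [ContinuousLinearMap.comp_apply, ContinuousLinearMap.proj_apply,
    ContinuousLinearEquiv.coe_coe, Complex.conjCLE_apply, Pi.smul_apply, smul_eq_mul, map_mul,
    Complex.conj_I]
  linear_combination (-2⁻¹ * (starRingEnd ℂ) (v 1)) * Complex.I_mul_I

theorem BT2_sol {K : C2 → ℂ} (hK : ContDiff ℝ ∞ K) (h0 : ∀ w, 1 ≤ ‖w‖ → K w = 0) :
    ∃ b : C2 → ℂ, ContDiff ℝ ∞ b ∧ (∀ w, w ∉ closedBall (0 : C2) 2 → b w = 0) ∧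
      ∀ w, ‖w 0‖ < 1 → dbar b w (Pi.single 0 1) = K w := by
  obtain ⟨a, a1, a2, -⟩ := P272.B1_cauchy 0 hK fun w hw => h0 w (hw.trans (norm_le_pi_norm w 0))
  let χ : ContDiffBump (0 : ℂ) := ⟨1, 2, one_pos, one_lt_two⟩
  have c0 : ContDiff ℝ ∞ fun t : ℂ => (χ t : ℂ) := Complex.ofRealCLM.contDiff.comp χ.contDiff
  have c1 : ∀ j, ContDiff ℝ ∞ fun z : C2 => (χ (z j) : ℂ) := fun j => c0.comp (contDiff_apply ℝ ℂ j)
  refine ⟨fun z => χ (z 0) * (χ (z 1) * a z), (c1 0).mul ((c1 1).mul a1), fun w hw => ?_,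
    fun w hw => ?_⟩
  · rw [mem_closedBall_zero_iff, pi_norm_le_iff_of_nonneg zero_le_two, Fin.forall_fin_two,
      not_and_or] at hw
    rcases hw with hw | hw <;>
      simp [χ.zero_of_le_dist (by rw [dist_zero_right]; exact (not_le.1 hw).le)]
  have e : (fun z : C2 => (χ (z 0) : ℂ) * (χ (z 1) * a z)) =ᶠ[𝓝 w] fun z => χ (z 1) * a z := by
    filter_upwards [(continuous_apply 0).norm.continuousAt.eventually_lt continuousAt_const hw]
      with z hz
    rw [χ.one_of_mem_closedBall (mem_closedBall_zero_iff.2 hz.le), Complex.ofReal_one, one_mul]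
  have d1 : HasFDerivAt (fun z : C2 => (χ (z 1) : ℂ)) _ w :=
    HasFDerivAt.comp (f := fun z : C2 => z 1) w (c0.differentiable (by simp) (w 1)).hasFDerivAt
      (hasFDerivAt_apply 1 w)
  have d2 : (χ (w 1) : ℂ) * K w = K w := by
    by_cases h1 : 1 ≤ ‖w‖
    · rw [h0 w h1, mul_zero]
    · rw [χ.one_of_mem_closedBall (mem_closedBall_zero_iff.2
        ((norm_le_pi_norm w 1).trans (not_le.1 h1).le)), Complex.ofReal_one, one_mul]
  rw [ac_congr e, ac_app, (d1.fun_mul (a1.differentiable (by simp) w).hasFDerivAt).fderiv, ← d2,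
    ← a2, ← dbar_apply, ac_app]
  simp
  ring

theorem Cov.tstep (C : Cov M) {α : M → C2 →L[ℝ] ℂ} (hα : ∀ p, C.SmF α p)
    {P : OpenPartialHomeomorph M C2} (hP : IsCh P) (hT : closedBall 0 3 ⊆ P.target) :
    ∃ η : M → C2 →L[ℝ] ℂ, (∀ p, C.SmF η p) ∧
      (∀ p ∉ P.symm '' closedBall 0 2, η =ᶠ[𝓝 p] 0) ∧
      ∀ p ∉ P.symm '' {z : C2 | 1 ≤ ‖z 0‖ ∧ ‖z‖ ≤ 2},
        ((∃ a, C.Prim α a p) ∨ p ∈ P.symm '' ball 0 (1 / 2)) → ∃ a, C.Prim (α - η) a p := by
  classical
  have hT2 : closedBall (0 : C2) 2 ⊆ P.target := (closedBall_subset_closedBall (by norm_num)).trans hT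
  have hs : ∀ w ∈ P.target, ∀ v, ContDiffAt ℝ ∞ (fun z => C.cmp P α z v) w := fun w hw v => by
    have h := ((hα (P.symm w)).cmp_sm hP (P.map_target hw) v).self_of_nhds
    rwa [P.right_inv hw] at h
  let θ : ContDiffBump (0 : C2) := ⟨1 / 2, 1, by norm_num, by norm_num⟩
  obtain ⟨b, b1, b2, b3⟩ := BT2_sol (K := fun z => θ z * C.curl P α z)
    (contDiff_iff_contDiffAt.2 fun z => by
      by_cases hz : z ∈ tsupport θ
      · rw [θ.tsupport_eq] at hz
        have h1 := hT2 (closedBall_subset_closedBall one_le_two hz)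
        exact (Complex.ofRealCLM.contDiff.comp θ.contDiff).contDiffAt.mul
          ((AD_sm (hs z h1 _) _).sub (AD_sm (hs z h1 _) _))
      · refine (contDiffAt_const (c := 0)).congr_of_eventuallyEq
          ((notMem_tsupport_iff_eventuallyEq.1 hz).mono fun w hw => ?_)
        simp only [hw, Pi.zero_apply, Complex.ofReal_zero, zero_mul])
    fun w hw => by
      rw [θ.zero_of_le_dist (by rw [dist_zero_right]; exact hw), Complex.ofReal_zero, zero_mul]
  obtain ⟨η, hη⟩ : ∃ η : M → C2 →L[ℝ] ℂ, η = fun q => P.source.indicator (b ∘ P) q •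
    C.db ((fun z : C2 => (starRingEnd ℂ) (z 1)) ∘ P) q := ⟨_, rfl⟩
  have sh : ∀ p ∈ P.source, SmAt ((fun z : C2 => (starRingEnd ℂ) (z 1)) ∘ P) p := fun p hp =>
    hP.sm_fun hp (.of_forall fun z =>
      (Complex.conjCLE.contDiff.comp (contDiff_apply ℝ ℂ (1 : Fin 2))).contDiffAt)
  have e0 : ∀ p ∉ P.symm '' closedBall 0 2, η =ᶠ[𝓝 p] 0 := fun p hp => by
    filter_upwards [((isCompact_closedBall 0 2).image_of_continuousOn
      (P.continuousOn_symm.mono hT2)).isClosed.isOpen_compl.mem_nhds hp] with q hq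
    have h1 : P.source.indicator (b ∘ P) q = 0 :=
      indicator_apply_eq_zero.2 fun h2 => b2 _ fun h3 => hq ⟨_, h3, P.left_inv h2⟩
    ext v
    simp [hη, h1]
  have e1 : ∀ p, C.SmF η p := fun p => by
    by_cases hp : p ∈ P.source
    · rw [hη]
      exact Cov.SmF.smul ((hP.sm_fun hp (.of_forall fun z => b1.contDiffAt)).congr
        (eventually_of_mem (P.open_source.mem_nhds hp) fun q hq => (indicator_of_mem hq _).symm))
        (Cov.smF_db (sh p hp))
    · refine Cov.smF_zero.congr (e0 p ?_).symm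
      rintro ⟨z, hz, rfl⟩
      exact hp (P.map_target (hT2 hz))
  have e2 : ∀ w ∈ P.target, ∀ v, C.cmp P (α - η) w v =
      C.cmp P α w v - b w * (starRingEnd ℂ) (v 1) := fun w hw v => by
    have h1 := C.cmp_db hP (P.map_target hw) (sh _ (P.map_target hw))
    rw [P.right_inv hw, ac_congr (G := fun z : C2 => (starRingEnd ℂ) (z 1))
      (eventually_of_mem (P.open_target.mem_nhds hw) fun z hz => by
        simp only [Function.comp, P.right_inv hz])] at h1
    rw [← BT2_conj w v, ← h1]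
    simp [Cov.cmp, hη, indicator_of_mem (P.map_target hw), P.right_inv hw]
  have e3 : ∀ w ∈ P.target, ‖w 0‖ < 1 →
      C.curl P (α - η) w = (1 - θ w) * C.curl P α w := fun w hw h1 => by
    have h2 := P.open_target.mem_nhds hw
    rw [Cov.curl, ac_congr (G := fun z => C.cmp P α z (Pi.single 1 1) - b z)
      (eventually_of_mem h2 fun z hz => by simp [e2 z hz]),
      ac_congr (F := fun z => C.cmp P (α - η) z (Pi.single 0 1))
      (G := fun z => C.cmp P α z (Pi.single 0 1)) (eventually_of_mem h2 fun z hz => by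
        simp [e2 z hz]), dbar_apply, P272.B1_dzb_sub _ ((hs w hw _).differentiableAt (by simp))
      (b1.differentiable (by simp) w), ← dbar_apply, ← dbar_apply, b3 w h1, Cov.curl]
    ring
  refine ⟨η, e1, e0, fun p hp h => ?_⟩
  by_cases h1 : p ∈ P.symm '' closedBall 0 2
  · obtain ⟨z, hz, rfl⟩ := h1
    have hz' := hT2 hz
    have h2 : ‖z 0‖ < 1 := not_le.1 fun h3 => hp ⟨z, ⟨h3, mem_closedBall_zero_iff.1 hz⟩, rfl⟩
    refine ((hα _).sub (e1 _)).prim hP (P.map_target hz') ?_
    have h3 : ∀ᶠ w in 𝓝 z, C.curl P (α - η) w = (1 - θ w) * C.curl P α w := by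
      filter_upwards [P.open_target.mem_nhds hz',
        (continuous_apply 0).norm.continuousAt.eventually_lt continuousAt_const h2] with w a1 a2
      exact e3 w a1 a2
    rcases h with ⟨a, ha⟩ | ⟨y, hy, e⟩
    · have h4 := ha.curl hP (P.map_target hz')
      rw [P.right_inv hz'] at h4 ⊢
      filter_upwards [h3, h4] with w a1 a2
      rw [a1, a2, mul_zero]
    · obtain rfl : y = z := P.symm.injOn
        (hT2 (ball_subset_closedBall (ball_subset_ball (by norm_num) hy))) hz' e
      rw [P.right_inv hz']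
      filter_upwards [h3, isOpen_ball.mem_nhds hy] with w a1 a2
      rw [a1, θ.one_of_mem_closedBall (ball_subset_closedBall a2), Complex.ofReal_one, sub_self,
        zero_mul]
  · obtain ⟨a, ha⟩ := h.resolve_right fun h2 => h1 (image_mono
      (ball_subset_closedBall.trans (closedBall_subset_closedBall (by norm_num))) h2)
    exact ⟨a, ha.congr ((e0 p h1).mono fun q hq => by
      rw [Pi.sub_apply, hq, Pi.zero_apply, sub_zero]) EventuallyEq.rfl⟩

end Vale.Agent.P267
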