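import Vale.Agent.P267.BT1
import Vale.Agent.P267.BT2
import Vale.Agent.P267.AF

/-! P267: pushing the non-closed part of a form off a zero set. -/

open scoped Manifold ContDiff Topology
open Filter Metric Set Asymptotics

noncomputable section

namespace Vale.Agent.P267

set_option linter.unusedSectionVars false

variable {M : Type} [TopologicalSpace M] [ChartedSpace C2 M] [T2Space M]

theorem Cov.lemT (C : Cov M) {u : M → M → ℂ} {s : M → ℂ} (hu : IsBundle HolAt u) (hs : Sec u s)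
    (h0 : ∀ p, ¬ u p * s =ᶠ[𝓝 p] 0) {α : M → C2 →L[ℝ] ℂ} (hα : ∀ p, C.SmF α p) {K₀ : Set M}
    (hK : IsCompact K₀) (hc : ∀ p ∉ K₀, ∃ a, C.Prim α a p) :
    ∃ (η : M → C2 →L[ℝ] ℂ) (K K' : Set M), IsCompact K ∧ IsCompact K' ∧ (∀ p ∈ K, s p ≠ 0) ∧
      (∀ p, C.SmF η p) ∧ (∀ p ∉ K', η =ᶠ[𝓝 p] 0) ∧ ∀ p ∉ K, ∃ a, C.Prim (α - η) a p := by
  classical
  choose P h1 h2 h3 h4 _ h6 using fun p => C.box (hs p) (h0 p) univ_mem
  have h7 : ∀ x, ∀ S ⊆ closedBall (0 : C2) 2, IsClosed S → IsCompact ((P x).symm '' S) :=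
    fun x S hS hS' => ((isCompact_closedBall 0 2).of_isClosed_subset hS' hS).image_of_continuousOn
      ((P x).continuousOn_symm.mono
        (hS.trans ((closedBall_subset_closedBall (by norm_num)).trans (h4 x))))
  have key : ∀ F : Finset M, ∃ (η : M → C2 →L[ℝ] ℂ) (K K' : Set M), IsCompact K ∧
      IsCompact K' ∧ (∀ p ∈ K, s p ≠ 0) ∧ (∀ p, C.SmF η p) ∧ (∀ p ∉ K', η =ᶠ[𝓝 p] 0) ∧
      ∀ p ∉ K, (p ∉ K₀ ∨ ∃ x ∈ F, p ∈ (P x).symm '' ball 0 (1 / 2)) →
        ∃ a, C.Prim (α - η) a p := by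
    intro F
    induction F using Finset.induction_on with
    | empty =>
      refine ⟨0, ∅, ∅, isCompact_empty, isCompact_empty, by simp, fun _ => smF_zero,
        fun _ _ => .rfl, fun p _ h => ?_⟩
      rw [sub_zero]
      exact hc p (by simpa using h)
    | insert x F _ ih =>
      obtain ⟨η, K, K', k1, k2, k3, k4, k5, k6⟩ := ih
      obtain ⟨η', l1, l2, l3⟩ := C.tstep (fun p => (hα p).sub (k4 p)) (h1 x) (h4 x)
      refine ⟨η + η', K ∪ (P x).symm '' {z : C2 | 1 ≤ ‖z 0‖ ∧ ‖z‖ ≤ 2},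
        K' ∪ (P x).symm '' closedBall 0 2, k1.union (h7 x _
          (fun z hz => mem_closedBall_zero_iff.2 hz.2) ((isClosed_le continuous_const
            (continuous_apply 0).norm).inter (isClosed_le continuous_norm continuous_const))),
        k2.union (h7 x _ Subset.rfl isClosed_closedBall), ?_, fun p => (k4 p).add (l1 p),
        fun p hp => ?_, fun p hp h => ?_⟩
      · rintro p (hp | ⟨z, hz, rfl⟩)
        · exact k3 p hp
        · exact right_ne_zero_of_mul (h6 x z hz.1 hz.2)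
      · filter_upwards [k5 p fun h => hp (Or.inl h), l2 p fun h => hp (Or.inr h)] with q e1 e2
        rw [Pi.add_apply, e1, e2, Pi.zero_apply, add_zero]
      · rw [← sub_sub]
        refine l3 p (fun h => hp (Or.inr h)) ?_
        have k7 := k6 p fun h => hp (Or.inl h)
        rcases h with h | ⟨y, hy, h⟩
        · exact Or.inl (k7 (Or.inl h))
        · rcases Finset.mem_insert.1 hy with rfl | hy
          · exact Or.inr h
          · exact Or.inl (k7 (Or.inr ⟨y, hy, h⟩))
  obtain ⟨F, -, hF⟩ := hK.elim_nhds_subcover (fun x => (P x).symm '' ball 0 (1 / 2)) fun x _ => by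
    have k := (P x).symm.image_mem_nhds ((P x).map_source (h2 x))
      (ball_mem_nhds (P x x) (by norm_num : (0 : ℝ) < 1 / 2))
    rwa [(P x).left_inv (h2 x), h3] at k
  obtain ⟨η, K, K', k1, k2, k3, k4, k5, k6⟩ := key F
  exact ⟨η, K, K', k1, k2, k3, k4, k5, fun p hp => k6 p hp
    (or_iff_not_imp_left.2 fun h => by
      simpa only [mem_iUnion, exists_prop] using hF (not_not.1 h))⟩

end Vale.Agent.P267
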