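import Vale.Agent.P267.BF
import Vale.Agent.P267.BT3

/-! P267: a bundle with a tail is trivial along a zero set near the end. -/

open scoped Manifold ContDiff Topology
open Filter Metric Set Asymptotics

noncomputable section

namespace Vale.Agent.P267

set_option linter.unusedSectionVars false

variable {M : Type} [TopologicalSpace M] [ChartedSpace C2 M] [T2Space M]

/-- A germ that is holomorphic modulo `s` is differentiable at the zeros of `s`. -/
theorem cd_of_mod {u : M → M → ℂ} {s h v : M → ℂ} {x : M} (hu : IsBundle HolAt u) (hs : Sec u s)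
    (hx : s x = 0) (hv : SmAt ((u x)⁻¹ * v) x) (hh : HolAt (h + s * v) x) :
    MDifferentiableAt 𝓘(ℂ, C2) 𝓘(ℂ, ℂ) h x := by
  refine (hh.cd.sub ((hs x).cd_mul (mul_eq_zero_of_right _ hx)
    hv.continuousAt)).congr_of_eventuallyEq ((hu.ne x).mono fun y hy => ?_)
  simp only [Pi.sub_apply, Pi.add_apply, Pi.mul_apply, Pi.inv_apply]
  field_simp
  ring

theorem Cov.tailfree [ConnectedSpace M] (C : Cov M) {u v : M → M → ℂ} {s q : M → ℂ}
    (hu : C.Tail u) (hs : Sec u s) (h1 : C.LimB s 1) (hS : C.Solve u s) (hv : C.Tail v)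
    (hq : Sec v q) : ∃ F : M → ℂ,
      (∀ᶠ x in comap C.t atBot, s x = 0 → MDifferentiableAt 𝓘(ℂ, C2) 𝓘(ℂ, ℂ) F x) ∧
        F =Θ[comap C.t atBot] q := by
  obtain ⟨a, δ, B, T, hδ, hB, ht⟩ := hv.tail'
  obtain ⟨τ, hτ⟩ : ∃ τ : ℝ, τ = -(T + C.R + 2) := ⟨_, rfl⟩
  have hJ : ∀ (i : C.I) p, p ∈ (C.ch i).source → C.t p < τ + 2 → i ∈ {i : C.I | T ≤ |i.2|} :=
    fun i p hp h => le_trans (Int.cast_le (R := ℝ).1 (by
      have := (abs_le.1 (C.t_ch hp)).1
      linarith)) (le_abs_self i.2)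
  have hU : ∀ p, p ∈ C.U (C.idx p) 2 := fun p => C.U_mono _ one_le_two (C.mem_U_idx p)
  have hI : ∀ p, C.t p < τ → C.idx p ∈ {i : C.I | T ≤ |i.2|} := fun p h =>
    hJ _ p (hU p).1 (by linarith)
  obtain ⟨f1, f2, f3, ε, B', hε, f4⟩ := ht.tform hδ hB hJ
  obtain ⟨η, K, K', hK, hK', k1, k2, k3, k4⟩ := C.lemT hu.hol hs
    (Sec.ne_germ C hu.hol hs h1.ne_zero) f1 (C.isCompact_t τ (τ + 1)) fun p hp => by
      rcases not_and_or.1 hp with h | h
      exacts [⟨_, f2 _ (hI p (not_le.1 h)) p (hU p) (not_le.1 h)⟩,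
        ⟨0, Cov.Prim.of_hol holAt_zero (f3 p (not_le.1 h))⟩]
  obtain ⟨L, hL⟩ := hK'.exists_bound_of_continuousOn C.continuous_t.continuousOn
  obtain ⟨h, ⟨D, hD⟩, -, -, g1, -⟩ := hS _ K hK k1 (fun p => (f1 p).sub (k2 p)) k4
    (Cov.smF_dec (fun p => (f1 p).sub (k2 p)) (B := B') (T := L + 1) hε fun p hp => by
      rw [Pi.sub_apply, (k3 p fun h => by linarith [show |C.t p| ≤ L from hL p h]).eq_of_nhds,
        Pi.zero_apply, sub_zero]
      exact f4 p)
  refine ⟨fun x => q x * Complex.exp (h x), ?_, .of_bound (Real.exp D) (.of_forall fun x => ?_),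
    .of_bound (Real.exp D) (.of_forall fun x => ?_)⟩
  · filter_upwards [tendsto_comap.eventually (eventually_lt_atBot τ),
      tendsto_comap.eventually (eventually_lt_atBot (-L))] with x x1 x2 hx
    obtain ⟨w, w1, w2⟩ := g1 x fun h => k1 x h hx
    have e1 := (w2.congr (β := C.tform a τ) ((k3 x fun h => by
      linarith [(abs_le.1 (hL x h : |C.t x| ≤ L)).1]).mono fun y hy => by
        rw [Pi.sub_apply, hy, Pi.zero_apply, sub_zero]) .rfl).hol_sub (f2 _ (hI x x1) x (hU x) x1)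
    rw [add_sub_right_comm] at e1
    have e2 := ((ht.hol_iff hv.hol (hI x x1) (hU x) q).1 (hq x)).cd.mul
      (Complex.differentiableAt_exp.comp_mdifferentiableAt (cd_of_mod hu.hol hs hx w1 e1))
    refine e2.congr_of_eventuallyEq (.of_forall fun y => ?_)
    simp only [Pi.mul_apply, Function.comp, Pi.sub_apply, Complex.exp_sub]
    field_simp
  · rw [norm_mul, mul_comm]
    exact mul_le_mul_of_nonneg_right ((Complex.norm_exp_le_exp_norm _).trans
      (Real.exp_le_exp.2 (hD x))) (norm_nonneg _)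
  · calc ‖q x‖ = ‖Complex.exp (-h x)‖ * ‖q x * Complex.exp (h x)‖ := by
          rw [← norm_mul, mul_left_comm, ← Complex.exp_add, neg_add_cancel, Complex.exp_zero, mul_one]
      _ ≤ _ := mul_le_mul_of_nonneg_right ((Complex.norm_exp_le_exp_norm _).trans
        (Real.exp_le_exp.2 ((norm_neg _).trans_le (hD x)))) (norm_nonneg _)

end Vale.Agent.P267
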