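import Vale.Agent.P267.AD

/-! P267: the form attached to a simple pole. -/

open scoped Manifold ContDiff Topology
open Filter Metric Set Asymptotics

noncomputable section

namespace Vale.Agent.P267

set_option linter.unusedSectionVars false

variable {M : Type} [TopologicalSpace M] [ChartedSpace C2 M] [T2Space M]

/-- A cut-off function of one complex variable. -/
theorem BE1_cut : ∃ χ : ℂ → ℂ, ContDiff ℝ ∞ χ ∧ (∀ z, ‖z‖ ≤ 1 → χ z = 1) ∧
    ∀ z, 2 ≤ ‖z‖ → χ z = 0 := by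
  let b : ContDiffBump (0 : ℂ) := ⟨1, 2, one_pos, one_lt_two⟩
  refine ⟨fun z => (b z : ℂ), Complex.ofRealCLM.contDiff.comp b.contDiff, fun z hz => ?_,
    fun z hz => ?_⟩
  · have h : b z = 1 := b.one_of_mem_closedBall (mem_closedBall_zero_iff.2 hz)
    simp only [h, Complex.ofReal_one]
  · have h : b z = 0 := b.zero_of_le_dist (by rw [dist_zero_right]; exact hz)
    simp only [h, Complex.ofReal_zero]

theorem BE1_norm {z : C2} (hz : ¬ ‖z‖ ≤ 2) : 2 < ‖z 0‖ ∨ 2 < ‖z 1‖ := by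
  by_contra h
  rw [not_or, not_lt, not_lt] at h
  exact hz ((pi_norm_le_iff_of_nonneg (by norm_num)).2 (Fin.forall_fin_two.2 h))

theorem BE1_sz (c : ℂ) : c • (0 : C2 →L[ℝ] ℂ) = 0 :=
  ContinuousLinearMap.ext fun _ => mul_zero c

theorem BE1_zs (L : C2 →L[ℝ] ℂ) : (0 : ℂ) • L = 0 :=
  ContinuousLinearMap.ext fun v => zero_mul (L v)

open Classical in
theorem Cov.polar (C : Cov M) {P : OpenPartialHomeomorph M C2} (hP : IsCh P)
    (hT : closedBall 0 3 ⊆ P.target) : ∃ (α : M → C2 →L[ℝ] ℂ) (a : M → ℂ),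
      (∀ p, C.SmF α p) ∧ (∀ p ∉ P.symm '' closedBall 0 2, α =ᶠ[𝓝 p] 0 ∧ a =ᶠ[𝓝 p] 0) ∧
      (∀ p ∉ P.symm '' {z : C2 | 1 ≤ ‖z 1‖ ∧ ‖z‖ ≤ 2}, ∃ b, C.Prim α b p) ∧
      (∀ p ∈ P.source, ‖P p 1‖ < 1 → P p 0 ≠ 0 → C.Prim α a p) ∧
      ∀ p ∈ P.source, ‖P p‖ < 1 → α =ᶠ[𝓝 p] 0 ∧ a p = (P p 0)⁻¹ := by
  obtain ⟨χ, hχ, h1, h0⟩ := BE1_cut
  have hs : closedBall (0 : C2) 2 ⊆ P.target :=
    (closedBall_subset_closedBall (by norm_num)).trans hT
  have hK : IsClosed (P.symm '' closedBall 0 2) :=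
    ((isCompact_closedBall 0 2).image_of_continuousOn (P.continuousOn_symm.mono hs)).isClosed
  have hc : ∀ p ∈ P.source, ∀ j, ContinuousAt (fun q => ‖P q j‖) p := fun p hp j =>
    (hP.coord hp j).continuousAt.norm
  have hsm : ∀ p ∈ P.source, ∀ j, SmAt (fun q => χ (P q j)) p := fun p hp j =>
    (hP.coord hp j).smAt.comp' hχ
  have d1 : ∀ p ∈ P.source, ‖P p 0‖ < 1 → C.db (fun q => χ (P q 0)) p = 0 := fun p hp h => by
    rw [C.db_congr (h := fun _ => 1)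
      (((hc p hp 0).eventually_lt continuousAt_const h).mono fun q hq => h1 _ hq.le), C.db_const]
  have d2 : ∀ p ∈ P.source, 2 < ‖P p 0‖ → C.db (fun q => χ (P q 0)) p = 0 := fun p hp h => by
    rw [C.db_congr (h := fun _ => 0)
      ((continuousAt_const.eventually_lt (hc p hp 0) h).mono fun q hq => h0 _ hq.le), C.db_const]
  obtain ⟨α, hα, hα'⟩ : ∃ α : M → C2 →L[ℝ] ℂ,
      (∀ q ∈ P.source, α q = (χ (P q 1) * (P q 0)⁻¹) • C.db (fun q => χ (P q 0)) q) ∧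
        ∀ q ∉ P.source, α q = 0 :=
    ⟨fun q => if q ∈ P.source then (χ (P q 1) * (P q 0)⁻¹) • C.db (fun q => χ (P q 0)) q else 0,
      fun q hq => if_pos hq, fun q hq => if_neg hq⟩
  obtain ⟨a, ha, ha'⟩ : ∃ a : M → ℂ,
      (∀ q ∈ P.source, a q = χ (P q 0) * (χ (P q 1) * (P q 0)⁻¹)) ∧ ∀ q ∉ P.source, a q = 0 :=
    ⟨fun q => if q ∈ P.source then χ (P q 0) * (χ (P q 1) * (P q 0)⁻¹) else 0,
      fun q hq => if_pos hq, fun q hq => if_neg hq⟩
  have k2 : ∀ p ∉ P.symm '' closedBall 0 2, α =ᶠ[𝓝 p] 0 ∧ a =ᶠ[𝓝 p] 0 := fun p hp => by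
    have h : ∀ᶠ q in 𝓝 p, α q = 0 ∧ a q = 0 := by
      filter_upwards [hK.isOpen_compl.mem_nhds hp] with q hq
      by_cases hqs : q ∈ P.source
      · rw [hα q hqs, ha q hqs]
        rcases BE1_norm (z := P q) (fun h => hq ⟨P q, mem_closedBall_zero_iff.2 h,
          P.left_inv hqs⟩) with h | h
        · rw [d2 q hqs h, h0 _ h.le, BE1_sz, zero_mul]
          exact ⟨rfl, rfl⟩
        · rw [h0 _ h.le, zero_mul, BE1_zs, mul_zero]
          exact ⟨rfl, rfl⟩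
      · exact ⟨hα' q hqs, ha' q hqs⟩
    exact ⟨h.mono fun q hq => hq.1, h.mono fun q hq => hq.2⟩
  have k5 : ∀ p ∈ P.source, ‖P p 0‖ < 1 → α =ᶠ[𝓝 p] 0 := fun p hp h => by
    filter_upwards [P.open_source.mem_nhds hp, (hc p hp 0).eventually_lt continuousAt_const h]
      with q hq hq'
    rw [hα q hq, d1 q hq hq', BE1_sz]
    rfl
  have hi : ∀ p ∈ P.source, P p 0 ≠ 0 → HolAt (fun q => P q 0)⁻¹ p := fun p hp h =>
    (hP.coord hp 0).inv h
  have k4 : ∀ p ∈ P.source, ‖P p 1‖ < 1 → P p 0 ≠ 0 → C.Prim α a p := fun p hp h h' => by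
    have e : ∀ᶠ q in 𝓝 p, q ∈ P.source ∧ χ (P q 1) = 1 := by
      filter_upwards [P.open_source.mem_nhds hp, (hc p hp 1).eventually_lt continuousAt_const h]
        with q hq hq'
      exact ⟨hq, h1 _ hq'.le⟩
    have k : C.Prim (fun q => (P q 0)⁻¹ • C.db (fun q => χ (P q 0)) q)
        ((fun q => χ (P q 0)) * (fun q => P q 0)⁻¹) p := by
      refine ⟨(hsm p hp 0).mul (hi p hp h').smAt, ?_⟩
      filter_upwards [P.open_source.mem_nhds hp, C.hol_ev (hi p hp h')] with q hq hq'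
      rw [C.db_mul (hsm q hq 0) hq'.smAt, C.db_hol hq', BE1_sz, zero_add]
      rfl
    refine k.congr (e.mono fun q hq => ?_) (e.mono fun q hq => ?_)
    · rw [hα q hq.1, hq.2, one_mul]
    · rw [ha q hq.1, hq.2, one_mul]
      rfl
  have hmem : ∀ p ∈ P.symm '' closedBall 0 2, p ∈ P.source ∧ ‖P p‖ ≤ 2 := by
    rintro _ ⟨z, hz, rfl⟩
    refine ⟨P.map_target (hs hz), ?_⟩
    rw [P.right_inv (hs hz)]
    exact mem_closedBall_zero_iff.1 hz
  refine ⟨α, a, fun p => ?_, k2, fun p hp => ?_, k4, fun p hp h => ⟨k5 p hp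
    ((norm_le_pi_norm _ 0).trans_lt h), ?_⟩⟩
  · by_cases hp : p ∈ P.symm '' closedBall 0 2
    · have hp' := (hmem p hp).1
      by_cases h : P p 0 = 0
      · exact Cov.smF_zero.congr (k5 p hp' (by rw [h, norm_zero]; exact one_pos)).symm
      · refine ((Cov.smF_db (hsm p hp' 0)).smul ((hsm p hp' 1).mul (hi p hp' h).smAt)).congr ?_
        filter_upwards [P.open_source.mem_nhds hp'] with q hq
        rw [hα q hq]
        rfl
    · exact Cov.smF_zero.congr (k2 p hp).1.symm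
  · by_cases hq : p ∈ P.symm '' closedBall 0 2
    · obtain ⟨hp', hn⟩ := hmem p hq
      have h : ‖P p 1‖ < 1 := lt_of_not_ge fun h => hp ⟨P p, ⟨h, hn⟩, P.left_inv hp'⟩
      by_cases h' : P p 0 = 0
      · exact ⟨0, Cov.Prim.of_hol holAt_zero (k5 p hp' (by rw [h', norm_zero]; exact one_pos))⟩
      · exact ⟨a, k4 p hp' h h'⟩
    · exact ⟨0, Cov.Prim.of_hol holAt_zero (k2 p hq).1⟩
  · rw [ha p hp, h1 _ ((norm_le_pi_norm _ 0).trans h.le), h1 _ ((norm_le_pi_norm _ 1).trans h.le),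
      one_mul, one_mul]

end Vale.Agent.P267
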