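import Vale.Agent.P267.BE1
import Vale.Agent.P267.BD
import Vale.Agent.P267.AH

/-! P267: a function with one simple pole on the zero set. -/

open scoped Manifold ContDiff Topology
open Filter Metric Set Asymptotics

noncomputable section

namespace Vale.Agent.P267

set_option linter.unusedSectionVars false

variable {M : Type} [TopologicalSpace M] [ChartedSpace C2 M] [T2Space M]

theorem Cov.pole [IsManifold 𝓘(ℂ, C2) ω M] (C : Cov M) {u : M → M → ℂ} {s : M → ℂ}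
    (hu : IsBundle HolAt u) (hs : Sec u s) (hS : C.Solve u s) {c : M → ℂ × ℂ} {ψ : ℂ × ℂ → M}
    {p : M} (hc : P267C.Crd C2 c ψ p) (hz : ∀ᶠ y in 𝓝 p, (s y = 0 ↔ (c y).2 = 0)) :
    ∃ f κ, P267C.Pole C2 C.t {x | s x = 0} c p f κ := by
  obtain ⟨P, r, hP, hr, hp, hN, hT, hcP⟩ := crd_chart hc hz
  obtain ⟨α, a, h1, h2, h3, h4, h5⟩ := C.polar hP hT
  have hs1 : ∀ y ∈ P.source, s y = 0 ↔ P y 1 = 0 := fun y hy => by
    rw [show s y = 0 ↔ (c y).2 = 0 from hN hy, (hcP y hy).2, mul_eq_zero, or_iff_right hr]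
  have h00 : ∀ y, P y 0 = 0 → P y 1 = 0 → P y = 0 := fun y e0 e1 => by
    funext j
    fin_cases j
    exacts [e0, e1]
  have hp0 : P p = 0 := by
    obtain ⟨e0, e1⟩ := hcP p hp
    rw [hc.c0] at e0 e1
    exact h00 p ((mul_eq_zero.1 e0.symm).resolve_left hr) ((mul_eq_zero.1 e1.symm).resolve_left hr)
  have hB : closedBall (0 : C2) 2 ⊆ P.target :=
    (closedBall_subset_closedBall (by norm_num)).trans hT
  have hL : IsCompact (P.symm '' closedBall 0 2) :=
    (isCompact_closedBall 0 2).image_of_continuousOn (P.continuousOn_symm.mono hB)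
  have hKB : {z : C2 | 1 ≤ ‖z 1‖ ∧ ‖z‖ ≤ 2} ⊆ closedBall 0 2 := fun z hz =>
    mem_closedBall_zero_iff.2 hz.2
  have hKc : IsClosed {z : C2 | 1 ≤ ‖z 1‖ ∧ ‖z‖ ≤ 2} :=
    (isClosed_le continuous_const (continuous_apply 1).norm).inter
      (isClosed_le continuous_norm continuous_const)
  have hK : IsCompact (P.symm '' {z : C2 | 1 ≤ ‖z 1‖ ∧ ‖z‖ ≤ 2}) :=
    ((isCompact_closedBall 0 2).of_isClosed_subset hKc hKB).image_of_continuousOn
      (P.continuousOn_symm.mono (hKB.trans hB))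
  have hKs : ∀ y ∈ P.symm '' {z : C2 | 1 ≤ ‖z 1‖ ∧ ‖z‖ ≤ 2}, s y ≠ 0 := by
    rintro _ ⟨z, hz, rfl⟩ h0
    have hz' := hB (hKB hz)
    rw [hs1 _ (P.map_target hz'), P.right_inv hz'] at h0
    have := hz.1
    rw [h0, norm_zero] at this
    exact absurd this (by norm_num)
  obtain ⟨T, hTb⟩ := hL.exists_bound_of_continuousOn C.continuous_t.continuousOn
  have hout : ∀ y, T + 1 ≤ |C.t y| → y ∉ P.symm '' closedBall 0 2 := fun y hy hy' => by
    have := hTb y hy'
    rw [Real.norm_eq_abs] at this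
    linarith
  obtain ⟨h, -, -, ⟨κ, hκ⟩, hv, -⟩ := hS α _ hK hKs h1 h3
    (Cov.smF_dec (ε := 1) (B := 0) (T := T + 1) h1 one_pos fun y hy => by
      rw [(h2 y (hout y hy)).1.self_of_nhds]
      simp)
  have key : ∀ (b : M → ℂ) x, s x = 0 → C.Prim α b x →
      MDifferentiableAt 𝓘(ℂ, C2) 𝓘(ℂ, ℂ) ((-r⁻¹) • (h - b)) x := fun b x hx hb => by
    obtain ⟨v, v1, v2⟩ := hv x fun h0 => hKs x h0 hx
    refine (cd_of_mod hu hs hx v1 ?_).const_smul _
    have := v2.hol_sub hb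
    rwa [add_sub_right_comm] at this
  refine ⟨(-r⁻¹) • (h - a), -r⁻¹ * κ, fun x hx hxp => key a x hx ?_, ⟨(-r⁻¹) • (h - 0), ?_⟩, ?_⟩
  · by_cases h0 : x ∈ P.source
    · have e1 := (hs1 x h0).1 hx
      refine h4 x h0 (by rw [e1, norm_zero]; exact one_pos) fun e0 => hxp ?_
      exact P.injOn h0 hp ((h00 x e0 e1).trans hp0.symm)
    · have h6 := h2 x (by
        rintro ⟨z, hz, rfl⟩
        exact h0 (P.map_target (hB hz)))
      exact Cov.Prim.of_hol (holAt_zero.congr h6.2.symm) h6.1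
  · have h6 : ∀ᶠ y in 𝓝 p, ‖P y‖ < 1 :=
      (P.continuousAt hp).norm.eventually_lt continuousAt_const (by rw [hp0, norm_zero]; exact one_pos)
    filter_upwards [P.open_source.mem_nhds hp, h6] with y y1 y2 y3
    refine ⟨key 0 y y3 (Cov.Prim.of_hol holAt_zero (h5 y y1 y2).1), fun _ => ?_⟩
    simp only [Pi.smul_apply, Pi.sub_apply, Pi.zero_apply, smul_eq_mul, (h5 y y1 y2).2,
      (hcP y y1).1, mul_inv]
    ring
  · refine Tendsto.mono_left ((hκ.tendsto.const_mul (-r⁻¹)).congr' ?_) inf_le_left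
    have h6 : ∀ᶠ y in comap C.t atBot, C.t y ≤ -(T + 1) :=
      tendsto_comap.eventually (eventually_le_atBot _)
    filter_upwards [h6] with y hy
    have h7 := (h2 y (hout y ((le_neg.1 hy).trans (neg_le_abs _)))).2.self_of_nhds
    simp only [Pi.smul_apply, Pi.sub_apply, smul_eq_mul, h7, Pi.zero_apply, sub_zero]

end Vale.Agent.P267
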