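import Vale.Agent.P267.AG

/-! P267: the tail of a bundle as a form. -/

open scoped Manifold ContDiff Topology
open Filter Metric Set Asymptotics

noncomputable section

namespace Vale.Agent.P267

set_option linter.unusedSectionVars false

variable {M : Type} [TopologicalSpace M] [ChartedSpace C2 M] [T2Space M]

namespace Cov
variable (C : Cov M)

/-- The cut-off function. -/
def cut (τ : ℝ) (p : M) : ℂ := (Real.smoothTransition (τ + 1 - C.t p) : ℝ)

/-- The truncated tail. -/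
def tform (a : C.I → M → ℂ) (τ : ℝ) (p : M) : C2 →L[ℝ] ℂ := C.cut τ p • C.db (a (C.idx p)) p

theorem cut_sm (τ : ℝ) (p : M) : SmAt (C.cut τ) p :=
  (C.t_sm p).comp_real (φ := fun x => Real.smoothTransition (τ + 1 - x))
    (Eventually.of_forall fun _ =>
      (Real.smoothTransition.contDiff.comp (contDiff_const.sub contDiff_id)).contDiffAt)
theorem cut_one {τ : ℝ} {p : M} (h : C.t p ≤ τ) : C.cut τ p = 1 := by
  rw [cut, Real.smoothTransition.one_of_one_le (by linarith), Complex.ofReal_one]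
theorem cut_zero {τ : ℝ} {p : M} (h : τ + 1 ≤ C.t p) : C.cut τ p = 0 := by
  rw [cut, Real.smoothTransition.zero_of_nonpos (by linarith), Complex.ofReal_zero]
theorem cut_norm (τ : ℝ) (p : M) : ‖C.cut τ p‖ ≤ 1 := by
  rw [cut, Complex.norm_real, Real.norm_of_nonneg (Real.smoothTransition.nonneg _)]
  exact Real.smoothTransition.le_one _

variable {C} {v : M → M → ℂ} {J : Set C.I} {a : C.I → M → ℂ} {δ B τ : ℝ}

theorem TailOn.db_eq (h : C.TailOn v J a δ B) {i : C.I} (hi : i ∈ J) {p : M} (hp : p ∈ C.U i 2)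
    (hJ : C.idx p ∈ J) : C.db (a (C.idx p)) p = C.db (a i) p := by
  have h1 : p ∈ C.U (C.idx p) 2 := C.U_mono _ one_le_two (C.mem_U_idx p)
  have h2 := C.db_hol (h.hol _ hJ i hi p ⟨h1, hp⟩)
  rwa [C.db_sub (h.sm _ hJ p h1) (h.sm i hi p hp), sub_eq_zero] at h2

theorem TailOn.tform (h : C.TailOn v J a δ B) (hδ : 0 < δ) (hB : 0 ≤ B)
    (hJ : ∀ i p, p ∈ (C.ch i).source → C.t p < τ + 2 → i ∈ J) :
    (∀ p, C.SmF (C.tform a τ) p) ∧
      (∀ i ∈ J, ∀ p ∈ C.U i 2, C.t p < τ → C.Prim (C.tform a τ) (a i) p) ∧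
      (∀ p, τ + 1 < C.t p → C.tform a τ =ᶠ[𝓝 p] 0) ∧
      ∃ ε B : ℝ, 0 < ε ∧ ∀ p, ‖C.tform a τ p‖ ≤ B * Real.exp (-ε * |C.t p|) := by
  have hi : ∀ p, C.t p < τ + 2 → C.idx p ∈ J := fun p hp => hJ _ p (C.mem_U_idx p).1 hp
  have h2 : ∀ p, p ∈ C.U (C.idx p) 2 := fun p => C.U_mono _ one_le_two (C.mem_U_idx p)
  have lt : ∀ {p : M} {x : ℝ}, C.t p < x → ∀ᶠ q in 𝓝 p, C.t q < x := fun hp =>
    (isOpen_lt C.continuous_t continuous_const).mem_nhds hp
  have z : ∀ p, τ + 1 ≤ C.t p → C.tform a τ p = 0 := fun p hp => by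
    rw [Cov.tform, C.cut_zero hp]
    exact zero_smul ℂ (C.db (a (C.idx p)) p)
  have h3 : ∀ p, τ + 1 < C.t p → C.tform a τ =ᶠ[𝓝 p] 0 := fun p hp => by
    filter_upwards [(isOpen_lt continuous_const C.continuous_t).mem_nhds hp] with q hq
    exact z q (le_of_lt hq)
  refine ⟨fun p => ?_, fun i hiJ p hp ht => ⟨h.sm i hiJ p hp, ?_⟩, h3,
    δ, B * Real.exp (δ * C.R), hδ, fun p => ?_⟩
  · rcases lt_or_ge (C.t p) (τ + 2) with hp | hp
    · refine (SmF.smul (C.cut_sm τ p) (smF_db (h.sm _ (hi p hp) p (h2 p)))).congr ?_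
      filter_upwards [lt hp, (C.isOpen_U _ 2).mem_nhds (h2 p)] with q q1 q2
      rw [Cov.tform, h.db_eq (hi p hp) q2 (hi q q1)]
    · exact smF_zero.congr (h3 p (by linarith)).symm
  · filter_upwards [lt ht, (C.isOpen_U _ 2).mem_nhds hp] with q q1 q2
    rw [Cov.tform, h.db_eq hiJ q2 (hi q (by linarith)), C.cut_one q1.le, one_smul]
  · rcases le_or_gt (τ + 1) (C.t p) with hp | hp
    · rw [z p hp, norm_zero]
      positivity
    have h4 := (h.bd _ (hi p (by linarith)) p (h2 p)).2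
    have h5 := abs_le.1 (C.t_ch (h2 p).1)
    have h6 : |C.t p| ≤ |((C.idx p).2 : ℝ)| + C.R := abs_le.2
      ⟨by linarith [le_abs_self ((C.idx p).2 : ℝ)], by linarith [neg_abs_le ((C.idx p).2 : ℝ)]⟩
    rw [Cov.tform, norm_smul]
    refine (mul_le_of_le_one_left (norm_nonneg _) (C.cut_norm τ p)).trans (h4.trans ?_)
    rw [mul_assoc, ← Real.exp_add]
    refine mul_le_mul_of_nonneg_left (Real.exp_le_exp.2 ?_) hB
    nlinarith

end Cov

end Vale.Agent.P267
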