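import Vale.Agent.P267.AG
import Vale.Agent.P267.AE

/-! P267: independence of the sections. -/

open scoped Manifold ContDiff Topology
open Filter Metric Set Asymptotics

noncomputable section

namespace Vale.Agent.P267

set_option linter.unusedSectionVars false

variable {M : Type} [TopologicalSpace M] [ChartedSpace C2 M] [T2Space M]

namespace Cov
variable {C : Cov M}

theorem unit_sec {v₁ v₂ : M → M → ℂ} {q₁ q₂ : M → ℂ} (h₁ : C.Tail v₁) (h₂ : C.Tail v₂)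
    (s₁ : Sec v₁ q₁) (s₂ : Sec v₂ q₂) (n₂ : ∀ p, ¬ v₂ p * q₂ =ᶠ[𝓝 p] 0) {U : Set M}
    (hU : IsOpen U) (h : ∀ x ∈ U, q₁ =Θ[𝓝 x] q₂) :
    ∃ σ : M → ℂ, ∀ x ∈ U, σ x ≠ 0 ∧ HolAt ((v₁ / v₂) x * σ) x := by
  have k : ∀ x ∈ U, ∃ H, HolAt H x ∧ v₁ x * q₁ =ᶠ[𝓝 x] H * (v₂ x * q₂) ∧ H x ≠ 0 := fun x hx => by
    have t := ((h₁.theta q₁ x).symm.trans (h x hx)).trans (h₂.theta q₂ x)
    obtain ⟨H, a1, a2⟩ := (s₁ x).ratio (s₂ x) (n₂ x) t.1
    obtain ⟨H', b1, b2⟩ := (s₂ x).ratio (s₁ x)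
      (fun e => n₂ x (by filter_upwards [t.2.eq_zero_imp, e] with y c d using c d)) t.2
    have c := ((s₂ x).cancel C (n₂ x) (ae_cont (b1.mul a1)) (ae_cont holAt_one) (by
      filter_upwards [a2, b2] with y c d
      simp only [Pi.mul_apply, Pi.one_apply] at c d ⊢
      linear_combination -d - H' y * c)).self_of_nhds
    exact ⟨H, a1, a2, right_ne_zero_of_mul_eq_one c⟩
  choose! H a1 a2 a3 using k
  refine ⟨fun x => H x x * v₂ x x / v₁ x x, fun x hx => ⟨div_ne_zero (mul_ne_zero (a3 x hx)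
    (h₂.hol.ne x).self_of_nhds) (h₁.hol.ne x).self_of_nhds, (a1 x hx).congr ?_⟩⟩
  filter_upwards [hU.mem_nhds hx, h₁.hol x, h₂.hol x, (a2 x hx).eventually_nhds,
    C.hol_ev (a1 x hx)] with y b1 b2 b3 b4 b5
  have c := ((s₂ y).cancel C (n₂ y) (ae_cont (b5.mul b3.2)) (ae_cont ((a1 y b1).mul b2.2)) (by
    filter_upwards [b4, a2 y b1, h₁.hol.ne y, h₂.hol.ne y] with z c1 c2 c3 c4
    simp only [Pi.mul_apply, Pi.div_apply] at c1 c2 ⊢
    field_simp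
    linear_combination v₁ x z * c2 - v₁ y z * c1)).self_of_nhds
  have d1 := (h₁.hol.ne y).self_of_nhds
  have d2 := (h₂.hol.ne y).self_of_nhds
  have d3 := b3.1
  simp only [Pi.mul_apply, Pi.div_apply] at c ⊢
  field_simp at c ⊢
  linear_combination c

theorem BI_one : C.Tail 1 ∧ Sec (1 : M → M → ℂ) 1 ∧ Bdd (1 : M → ℂ) ∧ C.LimB 1 1 :=
  ⟨tail_one, sec_one, ⟨1, fun _ => by simp⟩, limB_one⟩

theorem BI_mul {v v' : M → M → ℂ} {q q' : M → ℂ} (h : C.Tail v ∧ Sec v q ∧ Bdd q ∧ C.LimB q 1)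
    (h' : C.Tail v' ∧ Sec v' q' ∧ Bdd q' ∧ C.LimB q' 1) :
    C.Tail (v * v') ∧ Sec (v * v') (q * q') ∧ Bdd (q * q') ∧ C.LimB (q * q') 1 :=
  ⟨h.1.mul h'.1, h.2.1.mul h'.2.1, h.2.2.1.mul h'.2.2.1, one_mul (1 : ℂ) ▸ h.2.2.2.mul h'.2.2.2⟩

theorem BI_pow {v : M → M → ℂ} {q : M → ℂ} (h : C.Tail v ∧ Sec v q ∧ Bdd q ∧ C.LimB q 1) (m : ℕ) :
    C.Tail (v ^ m) ∧ Sec (v ^ m) (q ^ m) ∧ Bdd (q ^ m) ∧ C.LimB (q ^ m) 1 := by
  induction m with
  | zero => simpa only [pow_zero] using BI_one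
  | succ m ih => simpa only [pow_succ] using BI_mul ih h

variable [ConnectedSpace M] {n : ℕ} {S : Set M} {E u : Fin n → M → M → ℂ} {s : Fin n → M → ℂ}

/-- The product bundle and its section. -/
theorem Out.prod (O : C.Out E u s) (W : Finset (Fin n × ℤ)) (a : Fin n × ℤ → ℕ) :
    C.Tail (∏ w ∈ W, pull (C.g ^ w.2 : M ≃ₜ M) (u w.1) ^ a w) ∧
      Sec (∏ w ∈ W, pull (C.g ^ w.2 : M ≃ₜ M) (u w.1) ^ a w)
        (∏ w ∈ W, (s w.1 ∘ (C.g ^ w.2 : M ≃ₜ M)) ^ a w) ∧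
      Bdd (∏ w ∈ W, (s w.1 ∘ (C.g ^ w.2 : M ≃ₜ M)) ^ a w) ∧
      C.LimB (∏ w ∈ W, (s w.1 ∘ (C.g ^ w.2 : M ≃ₜ M)) ^ a w) 1 := by
  classical
  induction W using Finset.induction_on with
  | empty => simpa only [Finset.prod_empty] using BI_one
  | insert w W hw ih =>
    simp only [Finset.prod_insert hw]
    exact BI_mul (BI_pow ⟨(O.tail w.1).pull w.2, sec_pull (O.sec w.1) w.2, (O.bdd w.1).comp _,
      (O.one w.1).pull w.2⟩ _) ih

theorem Out.indep (H : C.Hyp S E) (O : C.Out E u s) : ∃ R : ℝ, ∀ (W : Finset (Fin n × ℤ)) (L : ℝ)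
    (a b : Fin n × ℤ → ℕ), (∀ w ∈ W, (w.2 : ℝ) ≤ L) →
    (∀ x, -L - R < C.t x → (fun y => ∏ w ∈ W, ‖s w.1 ((C.g ^ w.2) y)‖ ^ a w) =Θ[𝓝 x]
      fun y => ∏ w ∈ W, ‖s w.1 ((C.g ^ w.2) y)‖ ^ b w) → ∀ w ∈ W, a w = b w := by
  have ct : Continuous fun q => (C.t q : ℂ) :=
    continuous_iff_continuousAt.2 fun p => (C.t_sm p).continuousAt
  obtain ⟨B, hB⟩ := H.compact.exists_bound_of_continuousOn ct.continuousOn
  refine ⟨B + 1, fun W L a b hL h w hw => ?_⟩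
  obtain ⟨t1, s1, -, -⟩ := O.prod W a
  obtain ⟨t2, s2, -, l2⟩ := O.prod W b
  have hU : IsOpen {x | -L - (B + 1) < C.t x} :=
    isOpen_lt continuous_const (Complex.continuous_re.comp ct)
  obtain ⟨σ, hσ⟩ := unit_sec t1 t2 s1 s2 (Sec.ne_germ C t2.hol s2 l2.ne_zero) hU fun x hx => by
    rw [← isTheta_norm_left, ← isTheta_norm_right]
    simpa only [Finset.prod_apply, norm_prod, Pi.pow_apply, norm_pow, Function.comp_apply]
      using h x hx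
  have h1 := H.indep W (fun w => (a w : ℤ) - b w) _ hU (fun w hw x hx => by
    have h2 := hB _ hx
    rw [Complex.norm_real, Real.norm_eq_abs, C.t_gz] at h2
    show -L - (B + 1) < C.t x
    linarith [hL w hw, (abs_le.1 h2).1]) ⟨σ, fun p hp => ⟨(hσ p hp).1, ?_⟩⟩ w hw
  · exact Int.natCast_inj.1 (sub_eq_zero.1 h1)
  have n1 := fun w : Fin n × ℤ => (bundle_pull (C := C) (O.tail w.1).hol w.2).ne p
  have n2 := fun w : Fin n × ℤ => (bundle_pull_sm (C := C) (H.smooth w.1) w.2).ne p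
  refine ((SmAt.prod (W := W) fun w _ => ((C.sm_gz w.2).2 (O.iso w.1 ((C.g ^ w.2) p))).zpow
    (div_ne_zero (n1 w).self_of_nhds (n2 w).self_of_nhds) ((b w : ℤ) - a w)).mul
      (hσ p hp).2.smAt).congr ?_
  filter_upwards [(eventually_all_finset W).2 fun w _ => n1 w,
    (eventually_all_finset W).2 fun w _ => n2 w] with y c1 c2
  simp only [Pi.mul_apply, Pi.div_apply, Finset.prod_apply, Pi.pow_apply, Function.comp_apply,
    ← mul_assoc, ← Finset.prod_div_distrib, ← Finset.prod_mul_distrib]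
  refine congrArg (· * σ y) (Finset.prod_congr rfl fun w hw => ?_)
  have d1 := c1 w hw
  have d2 := c2 w hw
  unfold pull at d1 d2 ⊢
  rw [zpow_sub₀ (div_ne_zero d1 d2), zpow_sub₀ d2, zpow_natCast, zpow_natCast, zpow_natCast,
    zpow_natCast, div_pow, div_pow]
  field_simp

end Cov

end Vale.Agent.P267
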