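import Vale.Agent.P267.BC
import Vale.Agent.P267.BI
import Vale.Agent.P267.BE2

/-! P267: the input of the curve part. -/

open scoped Manifold ContDiff Topology
open Filter Metric Set Asymptotics

noncomputable section

namespace Vale.Agent.P267

set_option linter.unusedSectionVars false

variable {M : Type} [TopologicalSpace M] [ChartedSpace C2 M] [T2Space M]

theorem Cov.Out.cv [ConnectedSpace M] [IsManifold 𝓘(ℂ, C2) ω M] {C : Cov M} {n : ℕ} {S : Set M}
    {E u : Fin n → M → M → ℂ} {s : Fin n → M → ℂ} (H : C.Hyp S E) (O : C.Out E u s)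
    (hg : ∀ k : ℤ, ContMDiff 𝓘(ℂ, C2) 𝓘(ℂ, C2) ω (C.g ^ k : M ≃ₜ M)) :
    P267C.Cv C2 C.t C.g.toEquiv fun i x => ‖s i x‖ := by
  have e : ∀ k : ℤ, ⇑(C.g.toEquiv ^ k : Equiv.Perm M) = ⇑(C.g ^ k : M ≃ₜ M) := fun k =>
    congrArg (fun σ : Equiv.Perm M => (σ : M → M)) (map_zpow
      (MonoidHom.mk' (M := M ≃ₜ M) (G := Equiv.Perm M) Homeomorph.toEquiv fun _ _ => rfl) C.g k).symm
  have eP : ∀ (W : Finset (Fin n × ℤ)) x, P267C.Pr C.g.toEquiv (fun i x => ‖s i x‖) W x = 0 ↔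
      (∏ w ∈ W, (s w.1 ∘ (C.g ^ w.2 : M ≃ₜ M)) ^ (fun _ => 1 : Fin n × ℤ → ℕ) w) x = 0 :=
    fun W x => by
      simp only [P267C.Pr, P267C.Nk, e, pow_one, Finset.prod_apply, Function.comp_apply,
        ← norm_prod, norm_eq_zero]
  refine ⟨by simp, C.continuous_t, C.isCompact_t, C.shift, fun k x => e k ▸ hg k x,
    fun i x => ⟨u i x * s i, holAt_iff_contMDiffAt.1 (O.sec i x),
      isTheta_norm_left.2 ((O.tail i).theta (s i) x)⟩, ?_, fun W c ψ p hc hz => ?_, fun W a => ?_,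
    fun i => ?_, ?_⟩
  · choose T hT using fun i => (O.one i).half
    obtain ⟨B, hB⟩ := Finite.bddAbove_range T
    exact ⟨B, fun i x hx => (lt_of_lt_of_le one_half_pos
      (hT i x ((hB (mem_range_self i)).trans hx))).ne'⟩
  · obtain ⟨h1, h2, h3, h4⟩ := O.prod W fun _ => 1
    simp only [eP] at hz ⊢
    exact C.pole h1.hol h2 (O.solve _ h1 _ h2 h3 h4) hc hz
  · obtain ⟨h1, h2, h3, h4⟩ := O.prod W fun _ => 1
    obtain ⟨F, h5, h6⟩ := C.tailfree h1 h2 h4 (O.solve _ h1 _ h2 h3 h4) ((O.tail a.1).pull a.2)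
      (Cov.sec_pull (O.sec a.1) a.2)
    refine ⟨F, h5.mono fun x hx h => hx ((eP W x).1 h), (h6.mono inf_le_left).trans ?_⟩
    unfold P267C.Nk
    rw [e]
    exact isTheta_norm_right.2 (isTheta_refl _ _)
  · simp only [P267C.Nk, e]
    exact O.alt i
  · obtain ⟨R, hR⟩ := O.indep H
    refine ⟨R, fun L a b h => hR _ L a b (fun w hw => ?_) fun x hx => ?_⟩
    · exact_mod_cast (Finset.mem_Icc.1 (Finset.mem_product.1 hw).2).2
    · have := h x hx
      unfold P267C.Pw P267C.Nk at this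
      simpa only [e] using this

end Vale.Agent.P267
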