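import Vale.Agent.P267.AE

/-! P267: boxes whose vertical boundary avoids a zero set. -/

open scoped Manifold ContDiff Topology
open Filter Metric Set Asymptotics

noncomputable section

namespace Vale.Agent.P267

set_option linter.unusedSectionVars false

variable {M : Type} [TopologicalSpace M] [ChartedSpace C2 M] [T2Space M]

private theorem bt1_pt {σ : C2 → ℂ} {z₀ : C2} {r : ℝ} (hr : 0 < r)
    (hσ : ∀ y ∈ ball z₀ r, ContinuousAt σ y) (h0 : ¬ σ =ᶠ[𝓝 z₀] 0) :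
    ∃ y ∈ ball z₀ r, σ y ≠ 0 ∧ y 0 ≠ z₀ 0 := by
  by_contra hc
  push Not at hc
  apply h0
  filter_upwards [ball_mem_nhds z₀ hr] with y hy
  by_contra hy0
  have h1 : y 0 = z₀ 0 := hc y hy hy0
  have h2 : Tendsto (fun l : ℂ => y + l • (Pi.single 0 1 : C2)) (𝓝 0) (𝓝 y) := by
    have : Continuous fun l : ℂ => y + l • (Pi.single 0 1 : C2) := by fun_prop
    simpa using this.tendsto 0
  have h3 : ∀ᶠ w in 𝓝 y, w ∈ ball z₀ r ∧ σ w ≠ 0 :=
    (isOpen_ball.eventually_mem hy).and ((hσ y hy).eventually_ne hy0)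
  have h4 : ∀ᶠ l in 𝓝[≠] (0 : ℂ), l ≠ 0 := self_mem_nhdsWithin
  obtain ⟨l, hl, hl0⟩ := (((h2.eventually h3).filter_mono nhdsWithin_le_nhds).and h4).exists
  have h5 := hc _ hl.1 hl.2
  rw [← h1] at h5
  simp at h5
  exact hl0 h5

private theorem bt1_iso {σ : C2 → ℂ} {z₀ v : C2} {r : ℝ}
    (hσ : ∀ y ∈ ball z₀ r, AnalyticAt ℂ σ y) (hv : ‖v‖ < r) (h1 : σ (z₀ + v) ≠ 0) :
    ∃ ε > 0, ∀ l : ℂ, ‖l‖ < ε → l ≠ 0 → σ (z₀ + l • v) ≠ 0 := by
  have ha : AnalyticOnNhd ℂ (fun l : ℂ => σ (z₀ + l • v)) (closedBall 0 1) := fun l hl => by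
    have hm : z₀ + l • v ∈ ball z₀ r := by
      rw [mem_ball_iff_norm, add_sub_cancel_left, norm_smul]
      exact (mul_le_of_le_one_left (norm_nonneg _) (mem_closedBall_zero_iff.1 hl)).trans_lt hv
    exact AnalyticAt.comp (f := fun l : ℂ => z₀ + l • v) (hσ _ hm) (by fun_prop)
  have h0 : (0 : ℂ) ∈ closedBall (0 : ℂ) 1 := mem_closedBall_self zero_le_one
  rcases (ha 0 h0).eventually_eq_zero_or_eventually_ne_zero with h | h
  · have := ha.eqOn_zero_of_preconnected_of_eventuallyEq_zero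
      (convex_closedBall 0 1).isPreconnected h0 h (show (1 : ℂ) ∈ closedBall (0 : ℂ) 1 by simp)
    simp only [one_smul, Pi.zero_apply] at this
    exact absurd this h1
  · rw [eventually_nhdsWithin_iff, Metric.eventually_nhds_iff] at h
    obtain ⟨ε, hε, h⟩ := h
    exact ⟨ε, hε, fun l hl hl0 => h (by rwa [dist_zero_right]) hl0⟩

private theorem bt1_tube {σ : C2 → ℂ} {z₀ v w : C2} {K : Set ℂ} (hK : IsCompact K)
    (hσ : ∀ l ∈ K, ContinuousAt σ (z₀ + l • v) ∧ σ (z₀ + l • v) ≠ 0) :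
    ∃ δ > 0, ∀ m : ℂ, ‖m‖ < δ → ∀ l ∈ K, σ (z₀ + (l • v + m • w)) ≠ 0 := by
  have h : ∀ᶠ m in 𝓝 (0 : ℂ), ∀ l ∈ K, σ (z₀ + (l • v + m • w)) ≠ 0 := by
    refine hK.eventually_forall_of_forall_eventually
      (P := fun m l => σ (z₀ + (l • v + m • w)) ≠ 0) fun l hl => ?_
    have h1 : Tendsto (fun x : ℂ × ℂ => z₀ + (x.2 • v + x.1 • w)) (𝓝 (0, l)) (𝓝 (z₀ + l • v)) := by
      have : Continuous fun x : ℂ × ℂ => z₀ + (x.2 • v + x.1 • w) := by fun_prop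
      simpa using this.tendsto (0, l)
    exact h1.eventually ((hσ l hl).1.eventually_ne (hσ l hl).2)
  rw [Metric.eventually_nhds_iff] at h
  obtain ⟨δ, hδ, h⟩ := h
  exact ⟨δ, hδ, fun m hm => h (by rwa [dist_zero_right])⟩

private theorem bt1_lin {v : C2} (hv : v 0 ≠ 0) {a b : ℂ} (ha : a ≠ 0) (hb : b ≠ 0) :
    ∃ A : C2 ≃L[ℂ] C2, ∀ z, A z = (z 0 * a) • v + (z 1 * b) • (Pi.single 1 1 : C2) := by
  let L : C2 →ₗ[ℂ] C2 :=
    { toFun := fun z => (z 0 * a) • v + (z 1 * b) • (Pi.single 1 1 : C2)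
      map_add' := fun x y => by
        simp only [Pi.add_apply, add_mul, add_smul]; abel
      map_smul' := fun c x => by
        simp only [Pi.smul_apply, smul_eq_mul, RingHom.id_apply, smul_add, smul_smul, mul_assoc] }
  have hL : Function.Injective L := by
    rw [injective_iff_map_eq_zero]
    intro z hz
    have h0 : z 0 = 0 := by
      have := congrFun hz 0
      simpa [L, ha, hv] using this
    have h1 : z 1 = 0 := by
      have := congrFun hz 1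
      simpa [L, h0, hb] using this
    funext j
    fin_cases j
    · exact h0
    · exact h1
  exact ⟨(LinearEquiv.ofInjectiveEndo L hL).toContinuousLinearEquiv, fun z => rfl⟩

theorem box {σ : C2 → ℂ} {z₀ : C2} (hσ : AnalyticAt ℂ σ z₀) (h0 : ¬ σ =ᶠ[𝓝 z₀] 0) {N : Set C2}
    (hN : N ∈ 𝓝 z₀) : ∃ A : C2 ≃L[ℂ] C2, (∀ z : C2, ‖z‖ ≤ 3 → z₀ + A z ∈ N) ∧
      ∀ z : C2, 1 ≤ ‖z 0‖ → ‖z‖ ≤ 2 → σ (z₀ + A z) ≠ 0 := by
  obtain ⟨r, hr, hb⟩ := Metric.eventually_nhds_iff_ball.1 (hσ.eventually_analyticAt.and hN)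
  obtain ⟨y, hy, hy0, hy1⟩ := bt1_pt hr (fun y hy => (hb y hy).1.continuousAt) h0
  obtain ⟨v, rfl⟩ : ∃ v, y = z₀ + v := ⟨y - z₀, by abel⟩
  have hv : ‖v‖ < r := by rwa [mem_ball_iff_norm, add_sub_cancel_left] at hy
  have hv0 : v 0 ≠ 0 := fun h => hy1 (by simp [h])
  obtain ⟨ε, hε, hne⟩ := bt1_iso (fun y hy => (hb y hy).1) hv hy0
  obtain ⟨a, ha0, ha1, ha2⟩ : ∃ a : ℝ, 0 < a ∧ a ≤ ε / 4 ∧ a ≤ 1 / 6 :=
    ⟨min (ε / 4) (1 / 6), by positivity, min_le_left _ _, min_le_right _ _⟩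
  have hK : IsCompact (closedBall (0 : ℂ) (2 * a) ∩ {l | a ≤ ‖l‖}) :=
    (isCompact_closedBall _ _).inter_right (isClosed_le continuous_const continuous_norm)
  obtain ⟨δ, hδ, ht⟩ := bt1_tube (σ := σ) (z₀ := z₀) (v := v) (w := Pi.single 1 1) hK
    (fun l hl => by
      have h1 : ‖l‖ ≤ 2 * a := mem_closedBall_zero_iff.1 hl.1
      have h2 : a ≤ ‖l‖ := hl.2
      refine ⟨(hb _ ?_).1.continuousAt, hne l (by linarith) (norm_pos_iff.1 (by linarith))⟩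
      rw [mem_ball_iff_norm, add_sub_cancel_left, norm_smul]
      exact (mul_le_of_le_one_left (norm_nonneg _) (by linarith)).trans_lt hv)
  obtain ⟨b, hb0, hb1, hb2⟩ : ∃ b : ℝ, 0 < b ∧ b ≤ δ / 4 ∧ b ≤ r / 12 :=
    ⟨min (δ / 4) (r / 12), by positivity, min_le_left _ _, min_le_right _ _⟩
  obtain ⟨A, hA⟩ := bt1_lin hv0 (a := a) (b := b) (by exact_mod_cast ha0.ne')
    (by exact_mod_cast hb0.ne')
  have na : ∀ c : ℂ, ‖c * (a : ℂ)‖ = ‖c‖ * a := fun c => by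
    rw [norm_mul, Complex.norm_real, Real.norm_eq_abs, abs_of_pos ha0]
  have nb : ∀ c : ℂ, ‖c * (b : ℂ)‖ = ‖c‖ * b := fun c => by
    rw [norm_mul, Complex.norm_real, Real.norm_eq_abs, abs_of_pos hb0]
  refine ⟨A, fun z hz => (hb _ ?_).2, fun z h1 h2 => ?_⟩
  · rw [mem_ball_iff_norm, add_sub_cancel_left, hA]
    refine (norm_add_le _ _).trans_lt ?_
    rw [norm_smul, norm_smul, na, nb, Pi.norm_single, norm_one, mul_one]
    have a0 : ‖z 0‖ * a ≤ 3 * (1 / 6) :=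
      mul_le_mul ((norm_le_pi_norm z 0).trans hz) ha2 ha0.le (by norm_num)
    have a1 : ‖z 1‖ * b ≤ 3 * (r / 12) :=
      mul_le_mul ((norm_le_pi_norm z 1).trans hz) hb2 hb0.le (by norm_num)
    have a2 := mul_le_mul_of_nonneg_right a0 (norm_nonneg v)
    linarith
  · rw [hA]
    refine ht _ ?_ _ ⟨?_, ?_⟩
    · rw [nb]
      have := mul_le_mul_of_nonneg_right ((norm_le_pi_norm z 1).trans h2) hb0.le
      linarith
    · rw [mem_closedBall_zero_iff, na]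
      exact mul_le_mul_of_nonneg_right ((norm_le_pi_norm z 0).trans h2) ha0.le
    · show a ≤ ‖z 0 * (a : ℂ)‖
      rw [na]
      exact le_mul_of_one_le_left ha0.le h1

theorem Cov.box (C : Cov M) {σ : M → ℂ} {p : M} (hσ : HolAt σ p) (h0 : ¬ σ =ᶠ[𝓝 p] 0)
    {N : Set M} (hN : N ∈ 𝓝 p) : ∃ P : OpenPartialHomeomorph M C2, IsCh P ∧ p ∈ P.source ∧
      P p = 0 ∧ closedBall 0 3 ⊆ P.target ∧ (∀ z : C2, ‖z‖ ≤ 3 → P.symm z ∈ N) ∧
      ∀ z : C2, 1 ≤ ‖z 0‖ → ‖z‖ ≤ 2 → σ (P.symm z) ≠ 0 := by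
  have hp : p ∈ (C.ch (C.idx p)).source := (C.mem_U_idx p).1
  have hP := C.isCh (C.idx p)
  generalize C.ch (C.idx p) = P at hp hP
  have h1 : ¬ σ ∘ P.symm =ᶠ[𝓝 (P p)] 0 := fun h => h0 (by
    filter_upwards [(P.continuousAt hp).tendsto.eventually h, P.open_source.mem_nhds hp]
      with q h2 h3
    simpa only [Function.comp_apply, P.left_inv h3, Pi.zero_apply] using h2)
  have h2 : P.target ∩ P.symm ⁻¹' N ∈ 𝓝 (P p) :=
    inter_mem (P.open_target.mem_nhds (P.map_source hp)) (P.tendsto_symm hp hN)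
  obtain ⟨A, hA1, hA2⟩ := Vale.Agent.P267.box ((hP.hol p hp σ).1 hσ) h1 h2
  obtain ⟨Q, hQ, q1, q2, q3, q4⟩ := hP.affine A (P p)
  refine ⟨Q, hQ, q1 ▸ hp, by rw [q2, sub_self, map_zero], fun z hz => ?_, fun z hz => ?_,
    fun z hz hz' => ?_⟩
  · exact (q4 z).2 (hA1 z (mem_closedBall_zero_iff.1 hz)).1
  · rw [q3]; exact (hA1 z hz).2
  · rw [q3]; exact hA2 z hz hz'

end Vale.Agent.P267
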