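import Vale.Agent.P267.AG
import Vale.Agent.P267.AE

/-! P267: families that are holomorphic modulo a section. -/

open scoped Manifold ContDiff Topology
open Filter Metric Set Asymptotics

noncomputable section

namespace Vale.Agent.P267

set_option linter.unusedSectionVars false

variable {M : Type} [TopologicalSpace M] [ChartedSpace C2 M] [T2Space M]

/-- The entire function `(exp z - 1) / z`. -/
def Ex : ℂ → ℂ := dslope Complex.exp 0

theorem Ex_mul (z : ℂ) : z * Ex z = Complex.exp z - 1 := by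
  have := sub_smul_dslope Complex.exp 0 z
  simpa [Ex] using this

theorem bv1_diff : Differentiable ℂ Ex := by
  rw [← differentiableOn_univ]
  exact (Complex.differentiableOn_dslope univ_mem).2 Complex.differentiable_exp.differentiableOn

theorem Ex_sm : ContDiff ℝ ∞ Ex := (bv1_diff.contDiff (n := ∞)).restrict_scalars ℝ

theorem Ex_bdd (r : ℝ) : ∃ B : ℝ, 0 ≤ B ∧ ∀ z : ℂ, ‖z‖ ≤ r → ‖Ex z‖ ≤ B := by
  obtain ⟨B, hB⟩ := (isCompact_closedBall (0 : ℂ) r).exists_bound_of_continuousOn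
    bv1_diff.continuous.continuousOn
  exact ⟨max B 0, le_max_right _ _, fun z hz =>
    (hB z (mem_closedBall_zero_iff.2 hz)).trans (le_max_left _ _)⟩

namespace Cov
variable {C : Cov M} {u : M → M → ℂ} {s F : M → ℂ}

theorem fam_hol (C : Cov M) (hu : IsBundle HolAt u) (hs : Sec u s) {y : M}
    (h0 : ¬ u y * s =ᶠ[𝓝 y] 0) {f f' : M → ℂ} (h1 : SmAt ((u y)⁻¹ * f) y)
    (h2 : SmAt ((u y)⁻¹ * f') y) (h3 : HolAt (F + s * f) y) (h4 : HolAt (F + s * f') y) :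
    HolAt (u⁻¹ y * (f - f')) y := by
  have hw : SmAt (u⁻¹ y * (f - f')) y := (h1.sub h2).congr (Eventually.of_forall fun q => by
    simp only [Pi.sub_apply, Pi.mul_apply, Pi.inv_apply]; ring)
  refine HolAt.of_mul C (hs y) h0 hw ((h3.sub h4).congr ?_)
  filter_upwards [hu.ne y] with q hq
  simp only [Pi.sub_apply, Pi.mul_apply, Pi.inv_apply, Pi.add_apply]
  field_simp
  ring

theorem Tail.dec_of (hu : C.Tail u) (hs : Sec u s) (h0 : ∀ y, ¬ u y * s =ᶠ[𝓝 y] 0)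
    {f : M → M → ℂ} (h1 : ∀ p, SmAt ((u p)⁻¹ * f p) p) (h2 : ∀ p, HolAt (F + s * f p) p)
    (h3 : ∃ (ε B : ℝ) (T : ℤ), 0 < ε ∧ ∀ i : C.I, T ≤ |i.2| → ∃ G : M → ℂ, ∀ p ∈ C.U i (3 / 2),
      SmAt ((u p)⁻¹ * G) p ∧ HolAt (F + s * G) p ∧ ‖G p‖ ≤ B * Real.exp (-ε * |(i.2 : ℝ)|)) :
    C.Dec u⁻¹ f := by
  refine ⟨fun p => ?_, fun p => ?_, ?_⟩
  · filter_upwards [C.sm_ev (h1 p), C.hol_ev (h2 p), hu.hol.inv.smooth.sm_iff p] with q a b c
    exact C.fam_hol hu.hol hs (h0 q) ((c (f p)).2 a) (h1 q) b (h2 q)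
  · obtain ⟨c, hc⟩ := (hu.inv.theta (f p) p).1.bound
    have h := (h1 p).continuousAt.norm.eventually_lt_const
      (lt_add_one ‖((u p)⁻¹ * f p) p‖)
    refine ⟨|c| * (‖((u p)⁻¹ * f p) p‖ + 1), ?_⟩
    filter_upwards [hc, h] with q a b
    exact a.trans ((mul_le_mul_of_nonneg_right (le_abs_self c) (norm_nonneg _)).trans
      (mul_le_mul_of_nonneg_left b.le (abs_nonneg c)))
  · obtain ⟨ε, B, T, hε, h⟩ := h3
    refine ⟨ε, B, T, hε, fun i hi => ?_⟩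
    obtain ⟨G, hG⟩ := h i hi
    exact ⟨G, fun p hp => ⟨C.fam_hol hu.hol hs (h0 p) (h1 p) (hG p hp).1 (h2 p) (hG p hp).2.1,
      (hG p hp).2.2⟩⟩

theorem Tail.split (hu : C.Tail u) (hs : Sec u s) (hb : Bdd s) (hF : Bdd F) (hS : C.S1 u⁻¹)
    (hc : ∀ f : M → ℂ, (∀ p, HolAt f p) → Bdd f → ∃ c, ∀ p, f p = c)
    {f : M → M → ℂ} (h1 : ∀ p, SmAt ((u p)⁻¹ * f p) p) (h2 : ∀ p, HolAt (F + s * f p) p)
    (hd : C.Dec u⁻¹ f) : ∃ (w : M → ℂ) (c : ℂ), Bdd w ∧ (∀ p, SmAt ((u p)⁻¹ * w) p) ∧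
      ∀ p, F p + s p * w p = c := by
  obtain ⟨w, hw, hh⟩ := hS f hd
  have e1 : ∀ p, HolAt (F + s * w) p := fun p => by
    refine ((h2 p).sub ((hs p).mul (hh p))).congr ?_
    filter_upwards [hu.hol.ne p] with q hq
    simp only [Pi.sub_apply, Pi.mul_apply, Pi.inv_apply, Pi.add_apply]
    field_simp
    ring
  have e2 : Bdd (F + s * w) := by
    obtain ⟨A, hA⟩ := hF
    obtain ⟨B, hB⟩ := hb.mul hw
    exact ⟨A + B, fun p => (norm_add_le _ _).trans (add_le_add (hA p) (hB p))⟩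
  obtain ⟨c, hc⟩ := hc _ e1 e2
  refine ⟨w, c, hw, fun p => ?_, hc⟩
  refine ((h1 p).sub (hh p).smAt).congr (Eventually.of_forall fun q => ?_)
  simp only [Pi.sub_apply, Pi.mul_apply, Pi.inv_apply]
  ring

end Cov

end Vale.Agent.P267
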