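import Vale.Agent.P267.BV1
import Vale.Agent.P267.BF

/-! P267: the family for the division lemma. -/

open scoped Manifold ContDiff Topology
open Filter Metric Set Asymptotics

noncomputable section

namespace Vale.Agent.P267

set_option linter.unusedSectionVars false

variable {M : Type} [TopologicalSpace M] [ChartedSpace C2 M] [T2Space M]

section
variable {C : Cov M} {u v : M → M → ℂ} {s q h V : M → ℂ} {J : Set C.I} {a : C.I → M → ℂ}
  {δ B τ : ℝ} {p : M}

private theorem bv2_idx (p : M) : p ∈ C.U (C.idx p) 2 :=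
  C.U_mono _ one_le_two (C.mem_U_idx p)

private theorem bv2_q (hv : IsBundle HolAt v) (ht : C.TailOn v J a δ B) (hJ : C.idx p ∈ J)
    (hq : Sec v q) : SmAt q p := by
  have h1 := ((ht.hol_iff hv hJ (bv2_idx p) q).1 (hq p)).smAt
  refine (h1.div (ht.sm _ hJ p (bv2_idx p)).exp (Complex.exp_ne_zero _)).congr
    (Eventually.of_forall fun y => ?_)
  exact mul_div_cancel_left₀ _ (Complex.exp_ne_zero _)

private theorem bv2_low (hu : IsBundle HolAt u) (hs : Sec u s) (hv : IsBundle HolAt v)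
    (ht : C.TailOn v J a δ B) (hJ : C.idx p ∈ J) (hq : Sec v q) (hh : SmAt h p) (hp : C.t p < τ)
    {α : M → C2 →L[ℝ] ℂ} (ha : C.Prim α (a (C.idx p)) p) (h1 : SmAt ((u p)⁻¹ * V) p)
    (h2 : C.Prim α (h + s * V) p) :
    SmAt ((u p)⁻¹ * fun y => q y * Complex.exp (h y) * V y * Ex (s y * V y)) p ∧
      HolAt (C.cut τ * q * (fun y => Complex.exp (h y)) +
        s * fun y => q y * Complex.exp (h y) * V y * Ex (s y * V y)) p := by
  have h3 : SmAt (s * V) p := by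
    refine ((hs p).smAt.mul h1).congr ((hu.ne p).mono fun y hy => ?_)
    simp only [Pi.mul_apply, Pi.inv_apply]
    field_simp
  constructor
  · refine ((((bv2_q hv ht hJ hq).mul hh.exp).mul h1).mul (h3.comp' Ex_sm)).congr
      (Eventually.of_forall fun y => ?_)
    simp only [Pi.mul_apply, Pi.inv_apply]
    ring
  · refine (((ht.hol_iff hv hJ (bv2_idx p) q).1 (hq p)).mul (h2.hol_sub ha).exp).congr
      ((C.continuous_t.continuousAt.eventually_lt continuousAt_const hp).mono fun y hy => ?_)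
    have e := Ex_mul (s y * V y)
    have e0 := Complex.exp_ne_zero (a (C.idx p) y)
    simp only [Pi.mul_apply, Pi.add_apply, Pi.sub_apply, C.cut_one hy.le, Complex.exp_sub,
      Complex.exp_add]
    rw [eq_add_of_sub_eq e.symm]
    field_simp
    ring

private theorem bv2_cut (hp : τ + 1 < C.t p) : C.cut τ =ᶠ[𝓝 p] 0 :=
  (continuousAt_const.eventually_lt C.continuous_t.continuousAt hp).mono fun _ hy =>
    C.cut_zero hy.le

private theorem bv2_high (hu : IsBundle HolAt u) (hs : Sec u s)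
    (hτ : ∀ p, τ - 1 ≤ C.t p → 1 / 2 ≤ ‖s p‖) (hv : IsBundle HolAt v) (ht : C.TailOn v J a δ B)
    (hJ : C.t p < τ + 2 → C.idx p ∈ J) (hq : Sec v q) (hh : SmAt h p) (hp : τ ≤ C.t p) :
    SmAt ((u p)⁻¹ * (-(C.cut τ * q * fun y => Complex.exp (h y)) / s)) p ∧
      HolAt (C.cut τ * q * (fun y => Complex.exp (h y)) +
        s * (-(C.cut τ * q * fun y => Complex.exp (h y)) / s)) p := by
  have h0 : ∀ᶠ y in 𝓝 p, s y ≠ 0 :=
    (continuousAt_const.eventually_lt C.continuous_t.continuousAt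
      (show τ - 1 < C.t p by linarith)).mono fun y hy e => by
        have := hτ y hy.le
        rw [e, norm_zero] at this
        norm_num at this
  have h1 : SmAt (C.cut τ * q) p := by
    by_cases hc : C.t p < τ + 2
    · exact (C.cut_sm τ p).mul (bv2_q hv ht (hJ hc) hq)
    · refine smAt_zero.congr ((bv2_cut (show τ + 1 < C.t p by linarith)).mono fun y hy => ?_)
      rw [Pi.mul_apply, hy, Pi.zero_apply, zero_mul]
  constructor
  · refine ((h1.mul hh.exp).neg.div (hs p).smAt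
      (mul_ne_zero (hu.ne p).self_of_nhds h0.self_of_nhds)).congr (Eventually.of_forall fun y => ?_)
    simp only [Pi.mul_apply, Pi.inv_apply, Pi.div_apply, Pi.neg_apply]
    ring
  · refine holAt_zero.congr (h0.mono fun y hy => ?_)
    simp only [Pi.mul_apply, Pi.add_apply, Pi.div_apply, Pi.neg_apply, Pi.zero_apply]
    field_simp
    ring

end

theorem Cov.div_fam (C : Cov M) {u v : M → M → ℂ} {s q : M → ℂ} {J : Set C.I}
    {a : C.I → M → ℂ} {δ B τ : ℝ} (hu : C.Tail u) (hs : Sec u s) (hb : Bdd s)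
    (hS : C.Solve u s) (hτ : ∀ p, τ - 1 ≤ C.t p → 1 / 2 ≤ ‖s p‖) (hv : IsBundle HolAt v)
    (ht : C.TailOn v J a δ B) (hδ : 0 < δ) (hB : 0 ≤ B)
    (hJ : ∀ i p, p ∈ (C.ch i).source → C.t p < τ + 2 → i ∈ J) (hq : Sec v q) (hqb : Bdd q)
    (hqA : C.LimA q 0) :
    ∃ (h : M → ℂ) (f : M → M → ℂ), Bdd h ∧ (∀ p, SmAt h p) ∧
      (∀ p, SmAt ((u p)⁻¹ * f p) p) ∧
      (∀ p, HolAt (C.cut τ * q * (fun y => Complex.exp (h y)) + s * f p) p) ∧
      ∃ (ε B : ℝ) (T : ℤ), 0 < ε ∧ ∀ i : C.I, T ≤ |i.2| → ∃ G : M → ℂ, ∀ p ∈ C.U i (3 / 2),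
        SmAt ((u p)⁻¹ * G) p ∧ HolAt (C.cut τ * q * (fun y => Complex.exp (h y)) + s * G) p ∧
          ‖G p‖ ≤ B * Real.exp (-ε * |(i.2 : ℝ)|) := by
  obtain ⟨t1, t2, t3, t4⟩ := ht.tform hδ hB hJ
  have hi : ∀ p, C.t p < τ + 2 → C.idx p ∈ J := fun p => hJ _ p (C.mem_U_idx p).1
  have ha : ∀ p, C.t p < τ → C.Prim (C.tform a τ) (a (C.idx p)) p := fun p hp =>
    t2 _ (hi p (by linarith)) p (bv2_idx p) hp
  obtain ⟨h, h1, h2, -, h4, ε, B', T, hε, h5⟩ := hS (C.tform a τ) (C.t ⁻¹' Icc τ (τ + 1))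
    (C.isCompact_t _ _) (fun p hp e => by
      have := hτ p (by linarith [hp.1])
      rw [e, norm_zero] at this
      norm_num at this) t1 (fun p hp => by
      by_cases hc : C.t p < τ
      · exact ⟨_, ha p hc⟩
      · exact ⟨0, Cov.Prim.of_hol holAt_zero
          (t3 p (not_le.1 fun h' => hp ⟨not_lt.1 hc, h'⟩))⟩) t4
  have hf : ∀ p, ∃ G : M → ℂ, SmAt ((u p)⁻¹ * G) p ∧
      HolAt (C.cut τ * q * (fun y => Complex.exp (h y)) + s * G) p := fun p => by
    by_cases hc : C.t p < τ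
    · obtain ⟨V, a1, a2⟩ := h4 p fun h' => not_le.2 hc h'.1
      exact ⟨_, bv2_low hu.hol hs hv ht (hi p (by linarith)) hq (h2 p) hc (ha p hc) a1 a2⟩
    · exact ⟨_, bv2_high hu.hol hs hτ hv ht (hi p) hq (h2 p) (not_lt.1 hc)⟩
  choose f f1 f2 using hf
  refine ⟨h, f, h1, h2, f1, f2, ?_⟩
  obtain ⟨Bh, hBh⟩ := h1
  obtain ⟨Bs, hBs⟩ := hb
  obtain ⟨Bq, hBq⟩ := hqb
  obtain ⟨BE, hE0, hE⟩ := Ex_bdd (|Bs| * |B'|)
  refine ⟨ε, |Bq| * Real.exp Bh * |B'| * BE, max T ⌈C.R + |τ| + 2⌉, hε, fun i hT => ?_⟩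
  have hk : C.R + |τ| + 2 ≤ |(i.2 : ℝ)| := by
    have := Int.ceil_le.1 ((le_max_right _ _).trans hT)
    rwa [Int.cast_abs] at this
  have τ1 := le_abs_self τ
  have τ2 := neg_abs_le τ
  rcases le_total 0 (i.2 : ℝ) with hs0 | hs0
  · obtain ⟨V, hV⟩ := h5 i ((le_max_left _ _).trans hT)
    refine ⟨fun y => q y * Complex.exp (h y) * V y * Ex (s y * V y), fun p hp => ?_⟩
    obtain ⟨a1, a2, a3⟩ := hV p hp
    have hc : C.t p < τ := by
      rw [abs_of_nonneg hs0] at hk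
      linarith [(abs_le.1 (C.t_ch hp.1)).2]
    obtain ⟨b1, b2⟩ := bv2_low hu.hol hs hv ht (hi p (by linarith)) hq (h2 p) hc (ha p hc) a1 a2
    refine ⟨b1, b2, ?_⟩
    obtain ⟨E, hE'⟩ : ∃ E, E = Real.exp (-ε * |(i.2 : ℝ)|) := ⟨_, rfl⟩
    have e0 : 0 ≤ E := hE' ▸ (Real.exp_pos _).le
    have e1 : E ≤ 1 := by
      rw [hE', Real.exp_le_one_iff]
      exact mul_nonpos_of_nonpos_of_nonneg (neg_nonpos.2 hε.le) (abs_nonneg _)
    rw [← hE'] at a3 ⊢
    have c1 : ‖V p‖ ≤ |B'| * E := a3.trans (mul_le_mul_of_nonneg_right (le_abs_self _) e0)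
    have c2 : ‖Ex (s p * V p)‖ ≤ BE := hE _ (by
      rw [norm_mul]
      exact mul_le_mul ((hBs p).trans (le_abs_self _))
        (c1.trans (mul_le_of_le_one_right (abs_nonneg _) e1)) (norm_nonneg _) (abs_nonneg _))
    have c3 : ‖Complex.exp (h p)‖ ≤ Real.exp Bh :=
      (Complex.norm_exp_le_exp_norm _).trans (Real.exp_le_exp.2 (hBh p))
    have c4 : ‖q p‖ ≤ |Bq| := (hBq p).trans (le_abs_self _)
    simp only [norm_mul]
    calc _ ≤ |Bq| * Real.exp Bh * (|B'| * E) * BE := by gcongr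
      _ = _ := by ring
  · refine ⟨0, fun p hp => ⟨?_, ?_, ?_⟩⟩
    · rw [mul_zero]
      exact smAt_zero
    · rw [abs_of_nonpos hs0] at hk
      refine holAt_zero.congr ((bv2_cut (show τ + 1 < C.t p by
        linarith [(abs_le.1 (C.t_ch hp.1)).1])).mono fun y hy => ?_)
      simp only [Pi.mul_apply, Pi.add_apply, hy, Pi.zero_apply, zero_mul, mul_zero, add_zero]
    · rw [Pi.zero_apply, norm_zero]
      positivity

end Vale.Agent.P267
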