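import Vale.Agent.P267.BV2

/-! P267: the division lemma. -/

open scoped Manifold ContDiff Topology
open Filter Metric Set Asymptotics

noncomputable section

namespace Vale.Agent.P267

set_option linter.unusedSectionVars false

variable {M : Type} [TopologicalSpace M] [ChartedSpace C2 M] [T2Space M]

theorem Cov.div0 [ConnectedSpace M] (C : Cov M) {u v : M → M → ℂ} {s q : M → ℂ} {J : Set C.I}
    {a : C.I → M → ℂ} {δ B τ : ℝ} (hu : C.Tail u) (hs : Sec u s) (hb : Bdd s)
    (hS : C.Solve u s) (hτ : ∀ p, τ - 1 ≤ C.t p → 1 / 2 ≤ ‖s p‖) (hv : IsBundle HolAt v)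
    (ht : C.TailOn v J a δ B) (hδ : 0 < δ) (hB : 0 ≤ B)
    (hJ : ∀ i p, p ∈ (C.ch i).source → C.t p < τ + 2 → i ∈ J) (hq : Sec v q) (hqb : Bdd q)
    (hqA : C.LimA q 0)
    (hA : C.LimA s 0) (h1 : C.LimB s 1) (hS1 : C.S1 u⁻¹)
    (hc : ∀ f : M → ℂ, (∀ p, HolAt f p) → Bdd f → ∃ c, ∀ p, f p = c) :
    ∃ q', Sec (v / u) q' ∧ Bdd q' ∧ q = q' * s := by
  obtain ⟨h, f, ⟨Bh, hh⟩, h2, h3, h4, h5⟩ := C.div_fam hu hs hb hS hτ hv ht hδ hB hJ hq hqb hqA
  have h0 := Sec.ne_germ C hu.hol hs h1.ne_zero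
  have eb : ∀ z : M → ℂ, (∀ p, ‖z p‖ ≤ Bh) → Bdd fun y => Complex.exp (z y) := fun z hz =>
    ⟨Real.exp Bh, fun p => (Complex.norm_exp_le_exp_norm _).trans (Real.exp_le_exp.2 (hz p))⟩
  have cb : Bdd (C.cut τ) := ⟨1, C.cut_norm τ⟩
  obtain ⟨w, c, hw, hw2, hw3⟩ := hu.split hs hb ((cb.mul hqb).mul (eb h hh)) hS1 hc h3 h4
    (hu.dec_of hs h0 h3 h4 h5)
  have lim : ∀ {x y : M → ℂ}, C.LimA x 0 → Bdd y →
      Tendsto (fun p => x p * y p) (comap C.t atBot) (𝓝 0) := fun hx hy =>
    hx.tendsto.zero_mul_isBoundedUnder_le (isBoundedUnder_of hy)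
  have c0 : c = 0 := by
    have := C.neBot_A
    refine tendsto_nhds_unique tendsto_const_nhds
      ((add_zero (0 : ℂ) ▸ (lim hqA (cb.mul (eb h hh))).add (lim hA hw)).congr fun p => ?_)
    rw [← hw3 p]
    simp only [Pi.mul_apply]
    ring
  have s0 : ∀ p, τ - 1 ≤ C.t p → s p ≠ 0 := fun p hp e => by
    have := hτ p hp
    rw [e, norm_zero] at this
    norm_num at this
  obtain ⟨q', hq'⟩ : ∃ q' : M → ℂ,
    q' = fun p => if C.t p < τ then -w p * Complex.exp (-h p) else q p / s p := ⟨_, rfl⟩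
  have e : ∀ p, q p = q' p * s p := fun p => by
    simp only [hq']
    split_ifs with k
    · have := hw3 p
      have e0 := Complex.exp_ne_zero (h p)
      simp only [Pi.mul_apply, C.cut_one k.le, c0] at this
      rw [Complex.exp_neg]
      field_simp
      linear_combination this
    · rw [div_mul_cancel₀ _ (s0 p (by linarith))]
  refine ⟨q', fun p => HolAt.of_mul C (hs p) (h0 p) ?_ ((hq p).congr ?_), ?_, funext e⟩
  · by_cases k : C.t p < τ
    · refine (((ht.sm_frame hv (hJ _ p (C.mem_U_idx p).1 (by linarith))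
        (C.U_mono _ one_le_two (C.mem_U_idx p))).mul (hw2 p)).mul (h2 p).neg.exp).neg.congr ?_
      filter_upwards [C.continuous_t.continuousAt.eventually_lt continuousAt_const k] with y hy
      simp only [hq', if_pos hy, Pi.mul_apply, Pi.neg_apply, Pi.div_apply, Pi.inv_apply]
      ring
    · refine ((hq p).smAt.div (hs p).smAt
        (mul_ne_zero (hu.hol.ne p).self_of_nhds (s0 p (by linarith)))).congr ?_
      filter_upwards [continuousAt_const.eventually_lt C.continuous_t.continuousAt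
        (show τ - 1 < C.t p by linarith)] with y hy
      have := s0 y hy.le
      simp only [Pi.mul_apply, Pi.div_apply, e y]
      field_simp
  · filter_upwards [hu.hol.ne p] with y hy
    simp only [Pi.mul_apply, Pi.div_apply, e y]
    field_simp
  · obtain ⟨B1, b1⟩ := hw.mul (eb (-h) fun p => (norm_neg _).trans_le (hh p))
    obtain ⟨B2, b2⟩ := hqb
    refine ⟨max B1 (B2 / (1 / 2)), fun p => ?_⟩
    simp only [hq']
    split_ifs with k
    · rw [neg_mul, norm_neg]
      exact (b1 p).trans (le_max_left _ _)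
    · rw [norm_div]
      exact (div_le_div₀ ((norm_nonneg _).trans (b2 p)) (b2 p) one_half_pos
        (hτ p (by linarith))).trans (le_max_right _ _)

end Vale.Agent.P267
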